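import Vale.Agent.P248.H432.V5.G1

/-! P248: the volume of `CC e H D` does not depend on the position of the fibre. -/

open MeasureTheory Set

namespace Vale.Agent.P248.H432.V6

open Vale.Agent.P254.H242 (yp xp sp HG)
open Vale.Agent.P248.H432.V5

/-- the fibre over `y` -/
theorem cc_vol_eq {n q p : ℕ} (e : Fin n ≃ Fin q ⊕ Fin p) {H : Set ((Fin q → ℝ) × ℝ)}
    (hH : HG H) {D : Set (Fin p → ℝ)} (hD : IsCompact D) :
    volume (CC e H D) =
      ∫⁻ y : Fin q → ℝ, volume {x : Fin p → ℝ | ∃ r, (y, r) ∈ H ∧ ∃ w ∈ D, x = r • w} := by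
  have h1 : MeasurableSet (CC e H D) := (cc_compact e hH hD).measurableSet
  have h2 := (Vale.Agent.P254.H242.sp_mp e).measure_preimage h1.nullMeasurableSet
  rw [← h2, Measure.volume_eq_prod, Measure.prod_apply ((sp e).measurable h1)]
  refine lintegral_congr fun y => ?_
  congr 1
  ext x
  show (∃ r, (yp e (sp e (y, x)), r) ∈ H ∧ ∃ w ∈ D, xp e (sp e (y, x)) = r • w) ↔ _
  rw [Vale.Agent.P254.H242.yp_sp, Vale.Agent.P254.H242.xp_sp]
  rfl

theorem slice_eq {q p : ℕ} {H : Set ((Fin q → ℝ) × ℝ)} (hH : HG H) {y : Fin q → ℝ} {R : ℝ}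
    (hR : IsGreatest {r | (y, r) ∈ H} R) {D : Set (Fin p → ℝ)} (hc : Convex ℝ D)
    (h0 : (0 : Fin p → ℝ) ∈ D) :
    {x : Fin p → ℝ | ∃ r, (y, r) ∈ H ∧ ∃ w ∈ D, x = r • w} = {x | ∃ w ∈ D, x = R • w} := by
  ext x
  constructor
  · rintro ⟨r, hr, w, hw, rfl⟩
    have hr0 := hH.nn _ _ hr
    have hrR : r ≤ R := hR.2 hr
    rcases eq_or_lt_of_le (hr0.trans hrR) with h | h
    · refine ⟨w, hw, ?_⟩
      have : r = R := le_antisymm hrR (by rw [← h]; exact hr0)
      rw [this]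
    · refine ⟨(r / R) • w, ?_, ?_⟩
      · exact hc.smul_mem_of_zero_mem h0 hw
          ⟨div_nonneg hr0 h.le, (div_le_one h).2 hrR⟩
      · rw [smul_smul, mul_div_cancel₀ _ h.ne']
  · rintro ⟨w, hw, rfl⟩
    exact ⟨R, hR.1, w, hw, rfl⟩

/-- the volume does not depend on the position of the fibre -/
theorem cc_vol {n q p : ℕ} (e : Fin n ≃ Fin q ⊕ Fin p) {H : Set ((Fin q → ℝ) × ℝ)} (hH : HG H)
    {D : Set (Fin p → ℝ)} (hD : IsCompact D) (hc : Convex ℝ D) (h0 : (0 : Fin p → ℝ) ∈ D)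
    {v : Fin p → ℝ} (hv : -v ∈ D) : volume (CC e H {x | x - v ∈ D}) = volume (CC e H D) := by
  have hD' : IsCompact {x : Fin p → ℝ | x - v ∈ D} :=
    (Homeomorph.subRight v).isCompact_preimage.2 hD
  have hc' : Convex ℝ {x : Fin p → ℝ | x - v ∈ D} := by
    intro a ha b hb s t hs ht hst
    have h1 := hc ha hb hs ht hst
    have h2 : s • (a - v) + t • (b - v) = s • a + t • b - v := by
      have : v = (s + t) • v := by rw [hst, one_smul]
      conv_rhs => rw [this]
      module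
    show s • a + t • b - v ∈ D
    rw [← h2]
    exact h1
  have h0' : (0 : Fin p → ℝ) ∈ {x : Fin p → ℝ | x - v ∈ D} := by
    show 0 - v ∈ D
    rwa [zero_sub]
  rw [cc_vol_eq e hH hD, cc_vol_eq e hH hD']
  refine lintegral_congr fun y => ?_
  by_cases hy : ({r | (y, r) ∈ H} : Set ℝ).Nonempty
  · have hS : IsCompact ({r | (y, r) ∈ H} : Set ℝ) := by
      have h1 : ({r | (y, r) ∈ H} : Set ℝ) = Prod.snd '' (H ∩ {z | z.1 = y}) := by
        ext r
        constructor
        · intro hr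
          exact ⟨(y, r), ⟨hr, rfl⟩, rfl⟩
        · rintro ⟨⟨y', r'⟩, ⟨h2, h3⟩, rfl⟩
          have h4 : y' = y := h3
          subst h4
          exact h2
      rw [h1]
      refine (hH.cpt.inter_right ?_).image continuous_snd
      exact isClosed_eq continuous_fst continuous_const
    obtain ⟨R, hR⟩ := hS.exists_isGreatest hy
    rw [slice_eq hH hR hc h0, slice_eq hH hR hc' h0']
    have h5 : {x : Fin p → ℝ | ∃ w ∈ {x : Fin p → ℝ | x - v ∈ D}, x = R • w} =
        (fun x => x + (-(R • v))) ⁻¹' {x : Fin p → ℝ | ∃ w ∈ D, x = R • w} := by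
      ext x
      constructor
      · rintro ⟨w, hw, rfl⟩
        refine ⟨w - v, hw, ?_⟩
        show R • w + -(R • v) = R • (w - v)
        module
      · rintro ⟨w, hw, h6⟩
        have h6' : x + -(R • v) = R • w := h6
        refine ⟨w + v, ?_, ?_⟩
        · show w + v - v ∈ D
          rwa [add_sub_cancel_right]
        · rw [smul_add, ← h6']
          module
    rw [h5, measure_preimage_add_right]
  · have h1 : ∀ D : Set (Fin p → ℝ),
        {x : Fin p → ℝ | ∃ r, (y, r) ∈ H ∧ ∃ w ∈ D, x = r • w} = ∅ := by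
      intro D
      rw [eq_empty_iff_forall_notMem]
      rintro x ⟨r, hr, -⟩
      exact hy ⟨r, hr⟩
    rw [h1, h1]

end Vale.Agent.P248.H432.V6
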