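import Vale.Agent.P248.H432.Near
import Vale.Agent.P248.H432.Laws

/-! P248: bodies filling a part of another body. -/

open MeasureTheory Set
open scoped ENNReal

namespace Vale.Agent.P248.H432.V6

variable {n : ℕ}

theorem inside_law {K V : Set (E n)} (hV : IsConvexBody V) (hKV : K ⊆ V) :
    volumeProduct V * volume K ≤ volumeProduct K * volume V := by
  have hV0 : volume V ≠ 0 := by
    have h1 : volume (interior V) ≤ volume V := measure_mono interior_subset
    have h2 : 0 < volume (interior V) := isOpen_interior.measure_pos volume hV.2.2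
    exact (h2.trans_le h1).ne'
  have hVt : volume V ≠ ∞ := hV.1.measure_lt_top.ne
  rw [← ENNReal.div_le_iff hV0 hVt]
  unfold volumeProduct
  refine le_iInf₂ fun z hz => ?_
  have hz' : z ∈ interior V := interior_mono hKV hz
  refine ENNReal.div_le_of_le_mul ?_
  have h1 : polarAt V z ⊆ polarAt K z := fun y hy x hx => hy x (hKV hx)
  calc (⨅ z ∈ interior V, volume V * volume (polarAt V z)) * volume K
      ≤ (volume V * volume (polarAt V z)) * volume K := mul_le_mul' (iInf₂_le z hz') le_rfl
    _ ≤ (volume V * volume (polarAt K z)) * volume K :=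
        mul_le_mul' (mul_le_mul' le_rfl (measure_mono h1)) le_rfl
    _ = _ := by ring

/-- bodies filling more than the part `c_n / m_n` of a body with `P ≥ m_n` -/
theorem inside_strict {K V : Set (E n)} (hV : IsConvexBody V)
    (hKV : K ⊆ V) (hP : ENNReal.ofReal (4 ^ n / (n.factorial : ℝ)) ≤ volumeProduct V)
    (hv : ENNReal.ofReal (simplexVal n) * volume V <
      ENNReal.ofReal (4 ^ n / (n.factorial : ℝ)) * volume K) : 1 < mahlerRatio K := by
  have h1 := inside_law hV hKV
  have h2 : ENNReal.ofReal (simplexVal n) * volume V < volumeProduct K * volume V :=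
    hv.trans_le ((mul_le_mul' hP le_rfl).trans h1)
  have h3 : ENNReal.ofReal (simplexVal n) < volumeProduct K := lt_of_mul_lt_mul_right' h2
  rw [volumeProduct_eq_ratio] at h3
  have h4 : 1 * ENNReal.ofReal (simplexVal n) < mahlerRatio K * ENNReal.ofReal (simplexVal n) := by
    rwa [one_mul]
  exact lt_of_mul_lt_mul_right' h4

end Vale.Agent.P248.H432.V6
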