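import Vale.Agent.P248.H917.FDefs

/-! P248: fibrations over locally anti-blocking bases (definition). -/

namespace Vale.Agent.P248.H432.V6

open Vale.Agent.P248.H917

/-- `K ⊆ ℝⁿ` is fibred over a locally anti-blocking base in `ℝ^q` by homothets of `U`: in suitable
coordinates `(y, x) ↦ o + f y + g x` the nonempty fibres of `K` over the points `y ∈ ℝ^q` are
homothets `r U`, `r ≥ 0`, and setting a coordinate of `y` to `0` stays inside `K` (so that the fibre
does not get smaller). -/
def LabFibredBy {p n : ℕ} (q : ℕ) (U : Set (E p)) (K : Set (E n)) : Prop :=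
  q + p = n ∧ ∃ (o : E n) (f : E q → E n) (g : E p → E n), IsFibration o f g U K ∧
    ∀ (y : E q) (x : E p) (j : Fin q), o + f y + g x ∈ K →
      o + f (y - EuclideanSpace.single j (y j)) + g x ∈ K

end Vale.Agent.P248.H432.V6
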