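import Vale.Agent.P248.H432.V6.G3
import Vale.Agent.P248.H432.V6.FDefs
import Vale.Agent.P248.H432.V5.Line

/-! P248: bodies with homothetic fibres over a locally anti-blocking base. -/

open MeasureTheory Set
open scoped ENNReal

namespace Vale.Agent.P248.H432.V6

open Vale.Agent.P254.US (IsG ball isG_gauge)
open Vale.Agent.P254.H242 (yp xp sp fb HG HH)
open Vale.Agent.P248.H917 (Bd P0 IsExchange FibredBy IsFibration Fbr exists_u0 hg_HH_fbr mem_HH
  exists_frame bd_frame mem_frame_sb le_zero_iff)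
open Vale.Agent.P248.H432.V5

variable {n q p : ℕ}

theorem cc_grid (e : Fin n ≃ Fin q ⊕ Fin p) {H : Set ((Fin q → ℝ) × ℝ)} (hH : HG H)
    (hHi : (interior H).Nonempty) {t : Fin q → ℝ}
    (ht : ∀ y r, (y, r) ∈ H → ∀ j, (Function.update y j (t j), r) ∈ H)
    (a : Fin (p + 1) → ℕ) (ha : ∑ k, a k = p + 1) :
    1 ≤ mahlerRatio (EE (CC e H (Dl (gw a)))) := by
  have body : ∀ a : Fin (p + 1) → ℕ, ∑ k, a k = p + 1 → IsConvexBody (EE (CC e H (Dl (gw a)))) := by
    intro a ha
    obtain ⟨h1, h2, -, h4⟩ := dl_body (gw_nonneg a) (gw_sum ha)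
    exact cc_body e hH hHi h1 h2 h4
  refine grid (N := p + 1) (F := fun a => mahlerRatio (EE (CC e H (Dl (gw a))))) ?_ ?_ a ha
  · intro a b c i j hij ha hb hc
    have sb' : ∑ k, b k = p + 1 := by
      have h5 := congrArg (fun f : Fin (p + 1) → ℕ => ∑ k, f k) hb
      simp only [Pi.add_apply, Finset.sum_add_distrib, Finset.sum_pi_single', Finset.mem_univ,
        if_true] at h5
      omega
    have sc' : ∑ k, c k = p + 1 := by
      have h5 := congrArg (fun f : Fin (p + 1) → ℕ => ∑ k, f k) hc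
      simp only [Pi.add_apply, Finset.sum_add_distrib, Finset.sum_pi_single', Finset.mem_univ,
        if_true] at h5
      omega
    obtain ⟨-, h2, -, -⟩ := dl_body (gw_nonneg a) (gw_sum ha)
    have hb1 : dv p i j ∈ Dl (gw a) := by
      intro k
      rw [← gw_move hb k]
      exact gw_nonneg b k
    have hc1 : -dv p i j ∈ Dl (gw a) := by
      intro k
      rw [← dv_swap, ← gw_move hc k]
      exact gw_nonneg c k
    have h3 := cc_sum e hH h2 (dv_ne hij) hb1 hc1
    have e2 : {x | x - dv p i j ∈ Dl (gw a)} = Dl (gw c) := by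
      rw [← dl_move hc]
      ext x
      rw [dv_swap, mem_ofPred_eq, mem_ofPred_eq, sub_eq_add_neg, neg_neg]
    rw [dl_move hb, e2] at h3
    exact (h3.law (body b sb') (body c sc')).2
  · intro i
    have e1 : gw (Pi.single i (p + 1) : Fin (p + 1) → ℕ) = Pi.single i 1 := by
      funext k
      unfold gw
      by_cases hk : k = i
      · subst hk
        rw [Pi.single_eq_same, Pi.single_eq_same]
        push_cast
        exact div_self (by positivity)
      · rw [Pi.single_eq_of_ne hk, Pi.single_eq_of_ne hk]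
        simp
    have h1 := body (Pi.single i (p + 1)) (by simp)
    show 1 ≤ mahlerRatio (EE (CC e H (Dl (gw (Pi.single i (p + 1))))))
    rw [e1] at h1 ⊢
    rw [one_le_ratio_iff]
    exact (lab_full h1 (V6.cc_vertex e hH ht i)).1

theorem cc_centre (e : Fin n ≃ Fin q ⊕ Fin p) {H : Set ((Fin q → ℝ) × ℝ)} (hH : HG H)
    (hHi : (interior H).Nonempty) {t : Fin q → ℝ}
    (ht : ∀ y r, (y, r) ∈ H → ∀ j, (Function.update y j (t j), r) ∈ H) :
    1 ≤ mahlerRatio (EE (CC e H (Dl (fun _ : Fin (p + 1) => 1 / ((p : ℝ) + 1))))) := by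
  have h1 := V6.cc_grid e hH hHi ht (fun _ => 1) (by simp)
  have e1 : gw (fun _ : Fin (p + 1) => 1) = fun _ => 1 / ((p : ℝ) + 1) := by
    funext k
    unfold gw
    simp
  rwa [e1] at h1

/-- coordinates of a fibred body -/
theorem lab_cc (hp : 1 ≤ p) {K : Set (E (q + p))} (hK : IsConvexBody K)
    {D : Set (Fin p → ℝ)} (hD : Bd D) (h0 : (0 : Fin p → ℝ) ∈ interior D) {o : E (q + p)}
    {f : E q → E (q + p)} {g : E p → E (q + p)} (hF : IsFibration o f g (EE D) K) :
    ∃ (e : Fin (q + p) ≃ Fin q ⊕ Fin p) (H : Set ((Fin q → ℝ) × ℝ)), HG H ∧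
      (interior H).Nonempty ∧ volumeProduct K = volumeProduct (EE (CC e H D)) ∧
      ∃ u : Fin p → ℝ, ∀ (y : Fin q → ℝ) (r : ℝ), (y, r) ∈ H ↔
        0 ≤ r ∧ o + f (WithLp.toLp 2 y) + g (WithLp.toLp 2 (r • u)) ∈ K := by
  obtain ⟨b, hb⟩ := exists_frame hF.1 hF.2.1 hF.2.2.1
  have hS := bd_frame hK o b
  set e : Fin (q + p) ≃ Fin q ⊕ Fin p := finSumFinEquiv.symm with he
  set S := frame o b ⁻¹' K with hSd
  obtain ⟨hg, hbl⟩ := isG_gauge hD h0
  have hmem : ∀ (y : Fin q → ℝ) (x : Fin p → ℝ), sp e (y, x) ∈ S ↔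
      WithLp.toLp 2 x ∈ {x | o + f (WithLp.toLp 2 y) + g x ∈ K} := by
    intro y x
    rw [hSd, mem_preimage, hb, Vale.Agent.P254.H242.yp_sp, Vale.Agent.P254.H242.xp_sp]
    exact Iff.rfl
  have hFb : Fbr e D S := by
    intro y
    rcases hF.2.2.2 (WithLp.toLp 2 y) with h | ⟨r, hr, h⟩
    · left
      ext x
      show sp e (y, x) ∈ S ↔ _
      rw [hmem, h]
      exact Iff.rfl
    · right
      refine ⟨r, hr, ?_⟩
      ext x
      show sp e (y, x) ∈ S ↔ gauge D x ≤ r
      rw [hmem, h, ← smul_image hD h0 hr]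
      constructor
      · rintro ⟨w, hw, hx⟩
        exact ⟨WithLp.ofLp w, hw, congrArg WithLp.ofLp hx.symm⟩
      · rintro ⟨w, hw, hx⟩
        exact ⟨WithLp.toLp 2 w, hw, by rw [hx]; rfl⟩
  obtain ⟨u, hu, hu0⟩ := exists_u0 hp hg
  have hH := hg_HH_fbr hS hg hFb hu hu0
  have hKe : fb e (HH e S u) (gauge D) = S := by
    ext x
    show (yp e x, gauge D (xp e x)) ∈ HH e S u ↔ x ∈ S
    rw [mem_HH hg hFb hu, Vale.Agent.P254.H242.sp_yx]
  refine ⟨e, HH e S u, hH, ?_, ?_, u, fun y r => ?_⟩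
  · obtain ⟨z, hz⟩ := hS.2.2
    obtain ⟨ε, hε, hball⟩ := Metric.mem_nhds_iff.1 (mem_interior_iff_mem_nhds.1 hz)
    -- a point with nonzero second component
    obtain ⟨x', hx'0, hx'⟩ : ∃ x' : Fin p → ℝ, x' ≠ 0 ∧ ‖x' - xp e z‖ < ε := by
      by_cases h : xp e z = 0
      · refine ⟨fun _ => ε / 2, fun h1 => ?_, ?_⟩
        · have := congrFun h1 ⟨0, hp⟩
          simp only [Pi.zero_apply] at this
          linarith
        · rw [h, sub_zero]
          have : Nonempty (Fin p) := ⟨⟨0, hp⟩⟩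
          rw [pi_norm_const, Real.norm_eq_abs, abs_of_pos (by positivity)]
          linarith
      · exact ⟨xp e z, h, by simpa using hε⟩
    have hgx : 0 < gauge D x' := by
      by_contra h
      exact hx'0 ((le_zero_iff hg _).1 (not_lt.1 h))
    have hin : ∀ y : Fin q → ℝ, ‖y - yp e z‖ < ε → (y, gauge D x') ∈ HH e S u := by
      intro y hy
      rw [mem_HH hg hFb hu]
      apply hball
      rw [mem_ball_iff_norm]
      refine (pi_norm_lt_iff hε).2 fun i => ?_
      obtain ⟨s, rfl⟩ := e.symm.surjective i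
      rcases s with j | j
      · rw [Pi.sub_apply, Vale.Agent.P254.H242.sp_inl]
        exact (norm_le_pi_norm (y - yp e z) j).trans_lt hy
      · rw [Pi.sub_apply, Vale.Agent.P254.H242.sp_inr]
        exact (norm_le_pi_norm (x' - xp e z) j).trans_lt hx'
    have c1 : Continuous fun v : (Fin q → ℝ) × ℝ => ‖v.1 - yp e z‖ :=
      (continuous_fst.sub continuous_const).norm
    have hO : IsOpen {v : (Fin q → ℝ) × ℝ | ‖v.1 - yp e z‖ < ε ∧ 0 < v.2 ∧ v.2 < gauge D x'} :=
      (isOpen_lt c1 continuous_const).inter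
        ((isOpen_lt continuous_const continuous_snd).inter
          (isOpen_lt continuous_snd continuous_const))
    refine ⟨(yp e z, gauge D x' / 2), interior_maximal (fun v hv => ?_) hO ?_⟩
    · exact hH.down _ _ _ (hin v.1 hv.1) hv.2.1.le hv.2.2.le
    · refine ⟨by simpa using hε, by positivity, by show gauge D x' / 2 < gauge D x'; linarith⟩
  · rw [volumeProduct_eq_vp K o b, volumeProduct_eq_vp (EE _) 0 (sb (q + p)), preimage_EE,
      ← fb_eq_cc e hH hD h0, hKe]
  · show (0 ≤ r ∧ sp e (y, r • u) ∈ S) ↔ _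
    rw [hmem]
    exact Iff.rfl

/-- the exchanged body has a locally anti-blocking base -/
theorem lab_exch (hp : 1 ≤ p) {U W : Set (E p)} {K : Set (E n)} (hU : IsConvexBody U)
    (h0 : (0 : E p) ∈ interior U) (hW : Convex ℝ W) (hW0 : (0 : E p) ∈ W)
    (hF : LabFibredBy q U K) : ∃ K', IsExchange q U W K K' ∧ LabFibredBy q W K' := by
  obtain ⟨rfl, o, f, g, ⟨hf, hg, hs, hfib⟩, hdel⟩ := hF
  obtain ⟨b, hb⟩ := exists_frame hf hg hs
  have hU' := bd_frame hU 0 (sb p)
  have hU0 : (0 : Fin p → ℝ) ∈ interior (frame 0 (sb p) ⁻¹' U) := frame_preimage_zero h0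
  obtain ⟨hgU, hbU⟩ := isG_gauge hU' hU0
  obtain ⟨u, hu, hu0⟩ := exists_u0 hp hgU
  -- uniqueness of the coordinates
  have hinj : ∀ y y' : E q, ∀ x x' : E p, f y + g x = f y' + g x' → y = y' ∧ x = x' := by
    intro y y' x x' h
    have h1 : frame 0 b (sp finSumFinEquiv.symm (y.ofLp, x.ofLp)) =
        frame 0 b (sp finSumFinEquiv.symm (y'.ofLp, x'.ofLp)) := by
      rw [hb, hb, Vale.Agent.P254.H242.yp_sp, Vale.Agent.P254.H242.xp_sp,
        Vale.Agent.P254.H242.yp_sp, Vale.Agent.P254.H242.xp_sp, add_assoc, add_assoc]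
      exact congrArg (fun v => 0 + v) h
    unfold frame at h1
    have h2 := b.equivFun.symm.injective (add_left_cancel h1)
    have h3 := congrArg (fun v => yp finSumFinEquiv.symm v) h2
    have h4 := congrArg (fun v => xp finSumFinEquiv.symm v) h2
    simp only [Vale.Agent.P254.H242.yp_sp, Vale.Agent.P254.H242.xp_sp] at h3 h4
    exact ⟨by ext i; exact congrFun h3 i, by ext i; exact congrFun h4 i⟩
  -- monotonicity of the radii
  have hmon : ∀ (y y' : E q) (r r' : ℝ), 0 ≤ r → 0 ≤ r' →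
      {x | o + f y + g x ∈ K} = (fun u => r • u) '' U →
      {x | o + f y' + g x ∈ K} = (fun u => r' • u) '' U →
      {x | o + f y + g x ∈ K} ⊆ {x | o + f y' + g x ∈ K} → r ≤ r' := by
    intro y y' r r' hr hr' h1 h2 hsub
    have e1 := fib_coord' (y := y.ofLp) hU h0 hb hr h1 (r • u)
    have e2 := fib_coord' (y := y'.ofLp) hU h0 hb hr' h2 (r • u)
    rw [hgU.smul r hr, hu, mul_one] at e1 e2
    have e3 := e1.2 le_rfl
    refine e2.1 ?_
    rw [mem_preimage, hb, Vale.Agent.P254.H242.yp_sp, Vale.Agent.P254.H242.xp_sp] at e3 ⊢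
    exact hsub e3
  set K' : Set (E (q + p)) := {z | ∃ (y : E q) (x : E p) (r : ℝ), z = o + f y + g x ∧ 0 ≤ r ∧
    {x | o + f y + g x ∈ K} = (fun u => r • u) '' U ∧ x ∈ (fun w => r • w) '' W} with hK'
  have key : ∀ y : E q, ({x | o + f y + g x ∈ K} = ∅ ∧ {x | o + f y + g x ∈ K'} = ∅) ∨
      ∃ r : ℝ, 0 ≤ r ∧ {x | o + f y + g x ∈ K} = (fun u => r • u) '' U ∧
        {x | o + f y + g x ∈ K'} = (fun w => r • w) '' W := by
    intro y
    rcases hfib y with h1 | ⟨r, hr, h1⟩
    · refine Or.inl ⟨h1, ?_⟩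
      ext x
      simp only [mem_ofPred_eq, mem_empty_iff_false, iff_false]
      rintro ⟨y', x', r, h2, hr, h3, -⟩
      rw [add_assoc, add_assoc] at h2
      obtain ⟨rfl, rfl⟩ := hinj _ _ _ _ (add_left_cancel h2)
      rw [h1] at h3
      have h4 : r • (0 : E p) ∈ (fun u => r • u) '' U := ⟨0, interior_subset h0, rfl⟩
      rw [← h3] at h4
      exact h4
    · refine Or.inr ⟨r, hr, h1, ?_⟩
      ext x
      constructor
      · rintro ⟨y', x', r', h2, hr', h3, h4⟩
        rw [add_assoc, add_assoc] at h2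
        obtain ⟨rfl, rfl⟩ := hinj _ _ _ _ (add_left_cancel h2)
        have e : r' = r := le_antisymm (hmon _ _ _ _ hr' hr h3 h1 subset_rfl)
          (hmon _ _ _ _ hr hr' h1 h3 subset_rfl)
        rw [← e]
        exact h4
      · intro h2
        exact ⟨y, x, r, rfl, hr, h1, h2⟩
  refine ⟨K', ⟨rfl, o, f, g, hf, hg, hs, key⟩, rfl, o, f, g, ⟨hf, hg, hs, fun y => ?_⟩, ?_⟩
  · rcases key y with ⟨-, h⟩ | ⟨r, hr, -, h⟩
    · exact Or.inl h
    · exact Or.inr ⟨r, hr, h⟩
  · intro y x j hx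
    have hx' : x ∈ {x | o + f y + g x ∈ K'} := hx
    set y' : E q := y - EuclideanSpace.single j (y j) with hy'
    have hsub : {x | o + f y + g x ∈ K} ⊆ {x | o + f y' + g x ∈ K} := fun x hx => hdel y x j hx
    rcases key y with ⟨-, h⟩ | ⟨r, hr, h1, h2⟩
    · rw [h] at hx'
      exact absurd hx' (notMem_empty _)
    · have h3 : r • (0 : E p) ∈ {x | o + f y + g x ∈ K} := by
        rw [h1]
        exact ⟨0, interior_subset h0, rfl⟩
      rcases key y' with ⟨h4, -⟩ | ⟨r', hr', h4, h5⟩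
      · have h6 := hsub h3
        rw [h4] at h6
        exact absurd h6 (notMem_empty _)
      · have hrr := hmon _ _ _ _ hr hr' h1 h4 hsub
        rw [h2] at hx'
        obtain ⟨w, hw, rfl⟩ := hx'
        show _ ∈ {x | o + f y' + g x ∈ K'}
        rw [h5]
        rcases hr'.eq_or_lt with h7 | h7
        · have h8 : r = 0 := le_antisymm (by rw [h7]; exact hrr) hr
          refine ⟨w, hw, ?_⟩
          simp only
          rw [← h7, h8]
        · refine ⟨(r / r') • w, hW.smul_mem_of_zero_mem hW0 hw ⟨by positivity,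
            (div_le_one h7).2 hrr⟩, ?_⟩
          simp only
          rw [smul_smul, mul_div_cancel₀ _ h7.ne']

/-- **bodies with homothetic fibres over a locally anti-blocking base** -/
theorem lab_law (hp : 1 ≤ p) {U : Set (E p)} {K : Set (E n)} (hU : IsConvexBody U)
    (hsU : IsSantalo U) (hK : IsConvexBody K) (hF : LabFibredBy q U K) :
    mahlerRatio U ≤ mahlerRatio K := by
  obtain ⟨K', hX, hF'⟩ := lab_exch hp (W := Wd p) hU hsU.1 (wd_body p).2.1
    (interior_subset (w_santalo p).1) hF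
  obtain ⟨hK', h1⟩ := exch_sant hp hU hsU (wd_body p) (w_santalo p) hK hX
  obtain ⟨rfl, o, f, g, hF', hdel⟩ := hF'
  obtain ⟨e, H, hH, hHi, hv, u, hu⟩ := lab_cc hp hK' (dl_bd p) (dl_zero p) hF'
  have h2 : 1 ≤ mahlerRatio K' := by
    have h3 := V6.cc_centre (t := 0) e hH hHi (fun y r hy j => by
      obtain ⟨h4, h5⟩ := (hu _ _).1 hy
      have h6 := hdel _ _ j h5
      refine (hu _ _).2 ⟨h4, ?_⟩
      convert h6 using 4
      ext k
      by_cases hk : k = j
      · subst hk
        simp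
      · simp [hk])
    unfold mahlerRatio at h3 ⊢
    rwa [hv]
  have hW : volumeProduct (Wd p) = ENNReal.ofReal (simplexVal p) := (w_simplex p).volumeProduct_eq
  rw [hW, volumeProduct_eq_ratio K, volumeProduct_eq_ratio K', volumeProduct_eq_ratio U] at h1
  have hp0 := ofReal_sv_ne_zero p
  have hn0 := ofReal_sv_ne_zero (q + p)
  have h3 : mahlerRatio K = mahlerRatio K' * mahlerRatio U := by
    have h4 : (ENNReal.ofReal (simplexVal (q + p)) * ENNReal.ofReal (simplexVal p)) *
        mahlerRatio K = (ENNReal.ofReal (simplexVal (q + p)) * ENNReal.ofReal (simplexVal p)) *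
          (mahlerRatio K' * mahlerRatio U) := by
      calc _ = mahlerRatio K * ENNReal.ofReal (simplexVal (q + p)) *
            ENNReal.ofReal (simplexVal p) := by ring
        _ = _ := h1
        _ = _ := by ring
    exact (ENNReal.mul_right_inj (mul_ne_zero hn0 hp0)
      (ENNReal.mul_ne_top ENNReal.ofReal_ne_top ENNReal.ofReal_ne_top)).1 h4
  rw [h3]
  calc mahlerRatio U = 1 * mahlerRatio U := (one_mul _).symm
    _ ≤ _ := mul_le_mul' h2 le_rfl

end Vale.Agent.P248.H432.V6
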