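import Vale.Agent.P248.H432.V6.Sym
import Vale.Agent.P248.H432.V6.Law
import Vale.Agent.P248.H432.V6.Inside
import Vale.Agent.P248.H432.V4.Closed

/-! P248: the general Mahler conjecture for generated bodies. -/

set_option linter.unusedSectionVars false

open MeasureTheory Set Filter
open scoped ENNReal Topology Pointwise

namespace Vale.Agent.P248.H432.V6

open Vale.Agent.P248.H917 (IsSym IsExchange exch_ge)

open Vale.Agent.P248.H432.V4 (strict rot_block)
open Vale.Agent.P248.H432.V5 (IsSantalo line_law)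

/-- **The general Mahler conjecture for generated bodies**, with its equality case. -/
theorem generated {n : ℕ} {K : Set (E n)} (h : Generated n K) :
    IsConvexBody K ∧ 1 ≤ mahlerRatio K ∧ (mahlerRatio K = 1 ↔ IsSimplex K) := by
  induction h with
  | low hn hK => exact ⟨hK, Q2_down Q2_three hn _ hK⟩
  | few hK =>
    have h1 := H432.few _ (interior_convexHull_nonempty_iff_affineSpan_eq_top.1 hK.2.2)
    exact ⟨hK, h1.1, h1.2, ratio_simplex⟩
  | lab hK hL =>
    refine ⟨hK, ?_⟩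
    rw [one_le_ratio_iff, ratio_eq_one_iff]
    exact lab_full hK hL
  | rot hK hT hb => exact strict hK (rot_block hK hT hb)
  | signs hK hT hb => exact strict hK (S.sign_big hK hT hb)
  | sym hn hK => exact strict (symGenerated hK).1 (Q.one_lt_ratio hn (symGenerated hK).2)
  | join _ _ hj ihK ihL =>
    replace hj := hj.isJoin
    exact ⟨hj.body ihK.1 ihL.1,
      hj.ratio_iff ihK.1 ihL.1 ihK.2.1 ihK.2.2 ihL.2.1 ihL.2.2⟩
  | prod _ _ hj ihK ihL =>
    replace hj := hj.isProduct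
    exact ⟨hj.body ihK.1 ihL.1,
      hj.ratio_iff ihK.1 ihL.1 ihK.2.1 ihK.2.2 ihL.2.1 ihL.2.2⟩
  | polar _ ih =>
    have h1 := ratio_le_polar ih.1
    change mahlerRatio _ ≤ mahlerRatio (centroidPolar _) at h1
    refine ⟨polarAt_body ih.1 (centroid_mem ih.1), ih.2.1.trans h1, fun h2 => ?_, ratio_simplex⟩
    rw [h2] at h1
    exact polarAt_simplex (ih.2.2.1 (le_antisymm h1 ih.2.1)) (centroid_mem ih.1)
  | @glue n K K₁ K₂ _ _ hcv hg ih₁ ih₂ =>
    obtain ⟨h1, h2, h3⟩ := hg.law hcv ih₁.1 ih₂.1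
    by_cases hs : IsSimplex K₁ ∧ IsSimplex K₂
    · obtain ⟨v, hv, e⟩ := glue_few hcv hg hs.1 hs.2
      rw [e] at h1 ⊢
      have h4 := H432.few v hv
      exact ⟨h1, h4.1, h4.2, ratio_simplex⟩
    exact strict h1
      (mix_ratio ih₁.2.1 ih₂.2.1 (fun h => hs ⟨ih₁.2.2.1 h.1, ih₂.2.2.1 h.2⟩) h2 h3)
  | fibreSum _ _ hs hg ih₁ ih₂ =>
    obtain ⟨h1, h2, h3⟩ := hg.law ih₁.1 ih₂.1
    exact strict h1
      (mix_ratio ih₁.2.1 ih₂.2.1 (fun h => hs ⟨ih₁.2.2.1 h.1, ih₂.2.2.1 h.2⟩) h2 h3)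
  | exch hp hU hsU hW hW0 hUW _ hns hK hX ih =>
    have h1 := exch_mono hp hU hsU hW hW0 hUW hK hX
    exact strict hK ((lt_of_le_of_ne ih.2.1 fun h => hns (ih.2.2.1 h.symm)).trans_le
      (ENNReal.div_le_div_right h1 _))
  | @simplex q p n U W K K' hp _ hsU hWs hW0 _ hns hK hX ihU ihK =>
    have h1 := exch_ratio hp ihU.1 hsU hWs.isConvexBody hW0 hK hX
    rw [ratio_simplex hWs, mul_one] at h1
    refine strict hK (lt_of_lt_of_le ?_ h1)
    by_cases hs : IsSimplex K'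
    · have h2 : 1 < mahlerRatio U := lt_of_le_of_ne ihU.2.1 fun h =>
        hns ⟨ihU.2.2.1 h.symm, hs⟩
      calc (1 : ℝ≥0∞) < mahlerRatio U := h2
        _ = 1 * mahlerRatio U := (one_mul _).symm
        _ ≤ _ := mul_le_mul' ihK.2.1 le_rfl
    · have h2 : 1 < mahlerRatio K' := lt_of_le_of_ne ihK.2.1 fun h => hs (ihK.2.2.1 h.symm)
      calc (1 : ℝ≥0∞) < mahlerRatio K' := h2
        _ = mahlerRatio K' * 1 := (mul_one _).symm
        _ ≤ _ := mul_le_mul' le_rfl ihU.2.1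
  | inside hV hK hKV hv =>
    obtain ⟨h1, h2⟩ := symGenerated hV
    exact strict hK (inside_strict h1 hKV h2 hv)
  | line hp _ hns hsU hK hF ih =>
    have h1 := hF.elim (line_law hp ih.1 hsU hK) (lab_law hp ih.1 hsU hK)
    exact strict hK ((lt_of_le_of_ne ih.2.1 fun h => hns (ih.2.2.1 h.symm)).trans_le h1)

end Vale.Agent.P248.H432.V6
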