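import Vale.Agent.P248.H432.V6.FDefs
import Vale.Agent.P248.H432.V5.SDefs

/-! P248: classes of bodies (definitions). -/

namespace Vale.Agent.P248.H432.V6

open MeasureTheory Vale.Agent.P248.H917
open Vale.Agent.P248.H432.V5 (IsSantalo)

/-- The coordinates of `z` in the affine frame with the origin `p` and the basis `b`. -/
noncomputable def coord {n : ℕ} (p : E n) (b : Module.Basis (Fin n) ℝ (E n)) (z : E n)
    (i : Fin n) : ℝ := b.repr (z - p) i

/-- `K` is invariant, in some affine frame, under the sign changes of the coordinates in `T`
(nothing is assumed on the other coordinates). -/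
def IsSignInv {n : ℕ} (T : Finset (Fin n)) (K : Set (E n)) : Prop :=
  ∃ (p : E n) (b : Module.Basis (Fin n) ℝ (E n)), ∀ x ∈ K, ∀ y : E n,
    (∀ i, i ∉ T → coord p b y i = coord p b x i) →
    (∀ i ∈ T, |coord p b y i| = |coord p b x i|) → y ∈ K

/-- `T` contains all but one of `n ≥ 5` coordinates, or all but two of `n ≥ 14` coordinates, or
at least `(10 n + 4) / 11` coordinates. -/
def IsLarge {n : ℕ} (T : Finset (Fin n)) : Prop :=
  (T.card + 1 = n ∧ 5 ≤ n) ∨ (T.card + 2 = n ∧ 14 ≤ n) ∨ 10 * n + 4 ≤ 11 * T.card

/-- The bodies generated from the segments, the unconditional bodies, the bodies with cube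
symmetries in all coordinates but two (such as all symmetric planar bodies) and the bodies with
rotations in a block of at least `(10 n + 40) / 11` coordinates, by products, polarity at the
centroid, gluings, fibre sums, by taking origin-symmetric bodies whose fibres over a line or a
plane are homothets of an origin-symmetric generated body `U`, and by the exchange of a body `W`
containing `0` for a body `U` with Santaló point `0` and `P(U) ≥ P(W)` in the fibres of a generated
body. -/
inductive SymGenerated : ∀ n : ℕ, Set (E n) → Prop
  | low {n : ℕ} {K : Set (E n)} : n ≤ 1 → IsConvexBody K → SymGenerated n K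
  | uncond {n : ℕ} {K : Set (E n)} : IsConvexBody K → IsSignInv Finset.univ K → SymGenerated n K
  | cube {n : ℕ} {K : Set (E n)} : IsConvexBody K → IsCubeSym K → SymGenerated n K
  | rot {n m : ℕ} {K : Set (E n)} {T : Fin m → Finset (Fin n)} {i : Fin m} : IsConvexBody K →
      IsRotInv T K → 10 * n + 40 ≤ 11 * (T i).card → SymGenerated n K
  | prod {m n N : ℕ} {K : Set (E m)} {L : Set (E n)} {M : Set (E N)} :
      SymGenerated m K → SymGenerated n L → ProductOf K L M → SymGenerated N M
  | polar {n : ℕ} {K : Set (E n)} : SymGenerated n K → SymGenerated n (centroidPolar K)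
  | glue {n : ℕ} {K K₁ K₂ : Set (E n)} : SymGenerated n K₁ → SymGenerated n K₂ →
      Convex ℝ K → IsGluing K K₁ K₂ → SymGenerated n K
  | fibreSum {n : ℕ} {K K₁ K₂ : Set (E n)} : SymGenerated n K₁ → SymGenerated n K₂ →
      IsFibreSum K K₁ K₂ → SymGenerated n K
  | fibred {q p n : ℕ} {U : Set (E p)} {K : Set (E n)} : q ≤ 2 → SymGenerated p U → IsSym U →
      IsConvexBody K → IsSym K → CentrallyFibredBy q U K → SymGenerated n K
  | exch {q p n : ℕ} {U W : Set (E p)} {K K' : Set (E n)} : 1 ≤ p → IsConvexBody U →
      IsSantalo U → IsConvexBody W → 0 ∈ W → volumeProduct W ≤ volumeProduct U →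
      SymGenerated n K' → IsConvexBody K → IsExchange q U W K K' → SymGenerated n K

/-- The bodies generated from all convex bodies of dimension at most three, all polytopes with at
most `n + 2` vertices, all locally anti-blocking bodies, all bodies with rotations in a block of
at least `(n + 5) / 2` coordinates, all bodies with sign changes in a large set of coordinates and
all bodies of `SymGenerated` of dimension at least two, by joins, products (a product with a point
is an affine image), polarity at the centroid, gluings, fibre sums of two bodies that are not both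
simplices, and, for bodies `U` with Santaló point `0`: by the exchange of a body `W` containing `0`
with `P(W) ≤ P(U)` for `U` in the fibres of a generated body `K'` that is not a simplex; by the
exchange of a simplex `W` containing `0` for a generated `U` in the fibres of a generated body `K'`,
`U` and `K'` not both simplices; and by taking bodies whose fibres over a line or over a locally
anti-blocking base are homothets of a generated body `U` that is not a simplex; moreover all bodies
`K` inside a body `V` of `SymGenerated` with `c_n |V| < (4^n / n!) |K|`. -/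
inductive Generated : ∀ n : ℕ, Set (E n) → Prop
  | low {n : ℕ} {K : Set (E n)} : n ≤ 3 → IsConvexBody K → Generated n K
  | few {n : ℕ} {v : Fin (n + 2) → E n} : IsConvexBody (convexHull ℝ (Set.range v)) →
      Generated n (convexHull ℝ (Set.range v))
  | lab {n : ℕ} {K : Set (E n)} : IsConvexBody K → IsLocallyAntiBlocking K → Generated n K
  | rot {n m : ℕ} {K : Set (E n)} {T : Fin m → Finset (Fin n)} {i : Fin m} : IsConvexBody K →
      IsRotInv T K → n + 5 ≤ 2 * (T i).card → Generated n K
  | signs {n : ℕ} {K : Set (E n)} {T : Finset (Fin n)} : IsConvexBody K → IsSignInv T K →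
      IsLarge T → Generated n K
  | sym {n : ℕ} {K : Set (E n)} : 2 ≤ n → SymGenerated n K → Generated n K
  | join {m n N : ℕ} {K : Set (E m)} {L : Set (E n)} {M : Set (E N)} :
      Generated m K → Generated n L → JoinOf K L M → Generated N M
  | prod {m n N : ℕ} {K : Set (E m)} {L : Set (E n)} {M : Set (E N)} :
      Generated m K → Generated n L → ProductOf K L M → Generated N M
  | polar {n : ℕ} {K : Set (E n)} : Generated n K → Generated n (centroidPolar K)
  | glue {n : ℕ} {K K₁ K₂ : Set (E n)} : Generated n K₁ → Generated n K₂ → Convex ℝ K →
      IsGluing K K₁ K₂ → Generated n K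
  | fibreSum {n : ℕ} {K K₁ K₂ : Set (E n)} : Generated n K₁ → Generated n K₂ →
      ¬ (IsSimplex K₁ ∧ IsSimplex K₂) → IsFibreSum K K₁ K₂ → Generated n K
  | exch {q p n : ℕ} {U W : Set (E p)} {K K' : Set (E n)} : 1 ≤ p → IsConvexBody U →
      IsSantalo U → IsConvexBody W → 0 ∈ W → volumeProduct W ≤ volumeProduct U →
      Generated n K' → ¬ IsSimplex K' → IsConvexBody K → IsExchange q U W K K' → Generated n K
  | simplex {q p n : ℕ} {U W : Set (E p)} {K K' : Set (E n)} : 1 ≤ p → Generated p U →
      IsSantalo U → IsSimplex W → 0 ∈ W → Generated n K' → ¬ (IsSimplex U ∧ IsSimplex K') →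
      IsConvexBody K → IsExchange q U W K K' → Generated n K
  | line {q p n : ℕ} {U : Set (E p)} {K : Set (E n)} : 1 ≤ p → Generated p U → ¬ IsSimplex U →
      IsSantalo U → IsConvexBody K → FibredBy 1 U K ∨ LabFibredBy q U K → Generated n K
  | inside {n : ℕ} {K V : Set (E n)} : SymGenerated n V → IsConvexBody K → K ⊆ V →
      ENNReal.ofReal (simplexVal n) * volume V <
        ENNReal.ofReal (4 ^ n / (n.factorial : ℝ)) * volume K → Generated n K

end Vale.Agent.P248.H432.V6
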