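import Vale.Agent.P248.H432.V5.G3

/-! P248: bodies fibred over a locally anti-blocking base by a simplex with the origin at a vertex
are locally anti-blocking. -/

open MeasureTheory Set

namespace Vale.Agent.P248.H432.V6

open Vale.Agent.P254.H242 (yp xp sp HG)
open Vale.Agent.P248.H432.V5

variable {n q p : ℕ}

/-- the coordinates -/
noncomputable def g4F (e : Fin n ≃ Fin q ⊕ Fin p) (i : Fin (p + 1)) (z : E n) :
    Fin q ⊕ Fin p → ℝ :=
  Sum.elim (fun j => yp e (WithLp.ofLp z) j)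
    (fun k => el (xp e (WithLp.ofLp z)) (i.succAbove k))

theorem g4F_add (e : Fin n ≃ Fin q ⊕ Fin p) (i : Fin (p + 1)) (z w : E n)
    (m : Fin q ⊕ Fin p) : g4F e i (z + w) m = g4F e i z m + g4F e i w m := by
  rcases m with j | k
  · rfl
  · exact g3_el_add _ _ _

theorem g4F_smul (e : Fin n ≃ Fin q ⊕ Fin p) (i : Fin (p + 1)) (c : ℝ) (z : E n)
    (m : Fin q ⊕ Fin p) : g4F e i (c • z) m = c * g4F e i z m := by
  rcases m with j | k
  · rfl
  · exact g3_el_smul _ _ _

/-- the linear coordinates -/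
noncomputable def g4L (e : Fin n ≃ Fin q ⊕ Fin p) (i : Fin (p + 1)) :
    E n →ₗ[ℝ] (Fin n → ℝ) where
  toFun z m := g4F e i z (e m)
  map_add' z w := funext fun m => g4F_add e i z w (e m)
  map_smul' c z := funext fun m => g4F_smul e i c z (e m)

theorem g4L_inl (e : Fin n ≃ Fin q ⊕ Fin p) (i : Fin (p + 1)) (z : E n) (j : Fin q) :
    g4L e i z (e.symm (Sum.inl j)) = yp e (WithLp.ofLp z) j := by
  show g4F e i z (e (e.symm (Sum.inl j))) = _
  rw [Equiv.apply_symm_apply]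
  rfl

theorem g4L_inr (e : Fin n ≃ Fin q ⊕ Fin p) (i : Fin (p + 1)) (z : E n) (k : Fin p) :
    g4L e i z (e.symm (Sum.inr k)) = el (xp e (WithLp.ofLp z)) (i.succAbove k) := by
  show g4F e i z (e (e.symm (Sum.inr k))) = _
  rw [Equiv.apply_symm_apply]
  rfl

theorem g4L_inj (e : Fin n ≃ Fin q ⊕ Fin p) (i : Fin (p + 1)) :
    Function.Injective (g4L e i) := by
  rw [injective_iff_map_eq_zero]
  intro z hz
  have h1 : yp e (WithLp.ofLp z) = 0 := by
    funext j
    rw [← g4L_inl e i z j, hz]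
    rfl
  have h2 : xp e (WithLp.ofLp z) = 0 := by
    refine g3_el_ext (i := i) fun k => ?_
    rw [← g4L_inr e i z k, hz]
    rfl
  have h3 : WithLp.ofLp z = (0 : Fin n → ℝ) :=
    Vale.Agent.P254.H242.ext_yx e (by rw [h1]; rfl) (by rw [h2]; rfl)
  ext m
  rw [h3]
  rfl

theorem g4_mem (e : Fin n ≃ Fin q ⊕ Fin p) {H : Set ((Fin q → ℝ) × ℝ)} (hH : HG H)
    (i : Fin (p + 1)) (z : E n) :
    z ∈ EE (CC e H (Dl (Pi.single i 1))) ↔
      ∃ r, ((fun j => g4L e i z (e.symm (Sum.inl j))), r) ∈ H ∧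
        (∀ k, 0 ≤ g4L e i z (e.symm (Sum.inr k))) ∧
        ∑ k, g4L e i z (e.symm (Sum.inr k)) ≤ r := by
  have h0 : (fun j => g4L e i z (e.symm (Sum.inl j))) = yp e (WithLp.ofLp z) :=
    funext fun j => g4L_inl e i z j
  simp only [g4L_inr, h0]
  constructor
  · rintro ⟨r, hr, hw⟩
    exact ⟨r, hr, (g3_scale i (hH.nn _ _ hr) _).1 hw⟩
  · rintro ⟨r, hr, hw⟩
    exact ⟨r, hr, (g3_scale i (hH.nn _ _ hr) _).2 hw⟩

theorem cc_vertex (e : Fin n ≃ Fin q ⊕ Fin p) {H : Set ((Fin q → ℝ) × ℝ)} (hH : HG H)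
    {t : Fin q → ℝ} (ht : ∀ y r, (y, r) ∈ H → ∀ j, (Function.update y j (t j), r) ∈ H)
    (i : Fin (p + 1)) : IsLocallyAntiBlocking (EE (CC e H (Dl (Pi.single i 1)))) := by
  have hfin : Module.finrank ℝ (E n) = Module.finrank ℝ (Fin n → ℝ) := by
    rw [finrank_euclideanSpace, Module.finrank_pi]
  let Ψ : E n ≃ₗ[ℝ] (Fin n → ℝ) := LinearMap.linearEquivOfInjective (g4L e i) (g4L_inj e i) hfin
  have hΨ : ∀ z, Ψ z = g4L e i z := fun z => rfl
  let P : E n := WithLp.toLp 2 (sp e (t, 0))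
  have hPl : ∀ j, g4L e i P (e.symm (Sum.inl j)) = t j := fun j => by
    rw [g4L_inl]
    show yp e (sp e (t, 0)) j = t j
    rw [Vale.Agent.P254.H242.yp_sp]
  have hPr : ∀ k, g4L e i P (e.symm (Sum.inr k)) = 0 := fun k => by
    rw [g4L_inr]
    show el (xp e (sp e (t, 0))) (i.succAbove k) = 0
    rw [Vale.Agent.P254.H242.xp_sp]
    have := g3_el_smul 0 (0 : Fin p → ℝ) (i.succAbove k)
    rwa [zero_smul, zero_mul] at this
  refine ⟨P, Module.Basis.ofEquivFun Ψ, fun x hx m => ?_⟩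
  have hb : (Module.Basis.ofEquivFun Ψ) m = Ψ.symm (Pi.single m 1) := by
    rw [Module.Basis.coe_ofEquivFun]
  have hrep : ∀ z, (Module.Basis.ofEquivFun Ψ).repr z m = g4L e i z m := fun z => by
    rw [Module.Basis.ofEquivFun_repr_apply, hΨ]
  rw [hb, hrep]
  set x' : E n := x - g4L e i (x - P) m • Ψ.symm (Pi.single m 1) with hx'
  have hL : ∀ l, g4L e i x' l =
      g4L e i x l - (g4L e i x m - g4L e i P m) * (Pi.single m 1 : Fin n → ℝ) l := fun l => by
    rw [hx', map_sub, map_smul, map_sub, ← hΨ (Ψ.symm (Pi.single m 1)),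
      LinearEquiv.apply_symm_apply]
    rfl
  have hLm : g4L e i x' m = g4L e i P m := by
    rw [hL, Pi.single_eq_same]
    ring
  have hLn : ∀ l, l ≠ m → g4L e i x' l = g4L e i x l := fun l hl => by
    rw [hL, Pi.single_eq_of_ne hl]
    ring
  rw [g4_mem e hH] at hx ⊢
  obtain ⟨r, hr, hk, hs⟩ := hx
  rcases hm : e m with j | k
  · have hmj : m = e.symm (Sum.inl j) := by rw [← hm, Equiv.symm_apply_apply]
    have e1 : (fun j => g4L e i x' (e.symm (Sum.inl j))) =
        Function.update (fun j => g4L e i x (e.symm (Sum.inl j))) j (t j) := by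
      funext j'
      by_cases h : j' = j
      · rw [h, Function.update_self, ← hmj, hLm, hmj, hPl]
      · rw [Function.update_of_ne h]
        exact hLn _ (by rw [hmj]; simpa using h)
    have e2 : ∀ k, g4L e i x' (e.symm (Sum.inr k)) = g4L e i x (e.symm (Sum.inr k)) :=
      fun k => hLn _ (by rw [hmj]; simp)
    refine ⟨r, by rw [e1]; exact ht _ _ hr j, fun k => by rw [e2]; exact hk k, ?_⟩
    simp only [e2]
    exact hs
  · have hmk : m = e.symm (Sum.inr k) := by rw [← hm, Equiv.symm_apply_apply]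
    have e1 : (fun j => g4L e i x' (e.symm (Sum.inl j))) =
        fun j => g4L e i x (e.symm (Sum.inl j)) :=
      funext fun j => hLn _ (by rw [hmk]; simp)
    have e2 : g4L e i x' (e.symm (Sum.inr k)) = 0 := by rw [← hmk, hLm, hmk, hPr]
    have e3 : ∀ k', k' ≠ k →
        g4L e i x' (e.symm (Sum.inr k')) = g4L e i x (e.symm (Sum.inr k')) :=
      fun k' hk' => hLn _ (by rw [hmk]; simpa using hk')
    have e4 : ∀ k', 0 ≤ g4L e i x' (e.symm (Sum.inr k')) ∧
        g4L e i x' (e.symm (Sum.inr k')) ≤ g4L e i x (e.symm (Sum.inr k')) := fun k' => by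
      rcases eq_or_ne k' k with h | h
      · rw [h, e2]
        exact ⟨le_rfl, hk k⟩
      · rw [e3 k' h]
        exact ⟨hk k', le_rfl⟩
    refine ⟨r, by rw [e1]; exact hr, fun k' => (e4 k').1, ?_⟩
    exact (Finset.sum_le_sum fun k' _ => (e4 k').2).trans hs

end Vale.Agent.P248.H432.V6
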