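import Vale.Agent.P248.H432.V6.Path

/-! P248: the general exchange inequality. -/

open MeasureTheory Set
open scoped ENNReal

namespace Vale.Agent.P248.H432.V6

open Vale.Agent.P254.US (IsG ball isG_gauge)
open Vale.Agent.P254.H242 (yp xp sp fb HG HH)
open Vale.Agent.P248.H917 (Bd P0 IsExchange FibredBy IsFibration Fbr exists_u0 hg_HH_fbr mem_HH
  exists_frame bd_frame mem_frame_sb le_zero_iff)
open Vale.Agent.P248.H432.V5

variable {n q p : ℕ}

/-- coordinates of a fibred body -/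
theorem cc_of_fibration (hp : 1 ≤ p) {K : Set (E (q + p))} (hK : IsConvexBody K)
    {D : Set (Fin p → ℝ)} (hD : Bd D) (h0 : (0 : Fin p → ℝ) ∈ interior D) {o : E (q + p)}
    {f : E q → E (q + p)} {g : E p → E (q + p)} {b : Module.Basis (Fin (q + p)) ℝ (E (q + p))}
    (hb : ∀ (o : E (q + p)) (u : Fin (q + p) → ℝ),
      frame o b u = o + f (WithLp.toLp 2 (yp finSumFinEquiv.symm u)) +
        g (WithLp.toLp 2 (xp finSumFinEquiv.symm u)))
    (hF : IsFibration o f g (EE D) K) :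
    ∃ H : Set ((Fin q → ℝ) × ℝ), HG H ∧ (interior H).Nonempty ∧
      volumeProduct K = volumeProduct (EE (CC finSumFinEquiv.symm H D)) ∧
      (∀ (y : Fin q → ℝ), {x | o + f (WithLp.toLp 2 y) + g x ∈ K} = ∅ → ∀ r, (y, r) ∉ H) ∧
      ∀ (y : Fin q → ℝ) (r r' : ℝ), 0 ≤ r' →
        {x | o + f (WithLp.toLp 2 y) + g x ∈ K} = (fun w => r' • w) '' EE D →
        ((y, r) ∈ H ↔ 0 ≤ r ∧ r ≤ r') := by
  have hS := bd_frame hK o b
  set e : Fin (q + p) ≃ Fin q ⊕ Fin p := finSumFinEquiv.symm with he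
  set S := frame o b ⁻¹' K with hSd
  obtain ⟨hg, hbl⟩ := isG_gauge hD h0
  have hmem : ∀ (y : Fin q → ℝ) (x : Fin p → ℝ), sp e (y, x) ∈ S ↔
      WithLp.toLp 2 x ∈ {x | o + f (WithLp.toLp 2 y) + g x ∈ K} := by
    intro y x
    rw [hSd, mem_preimage, hb, Vale.Agent.P254.H242.yp_sp, Vale.Agent.P254.H242.xp_sp]
    exact Iff.rfl
  have hrad : ∀ (y : Fin q → ℝ) (r : ℝ), 0 ≤ r →
      {x | o + f (WithLp.toLp 2 y) + g x ∈ K} = (fun w => r • w) '' EE D →
      ∀ x, sp e (y, x) ∈ S ↔ gauge D x ≤ r := by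
    intro y r hr h x
    rw [hmem, h, ← smul_image hD h0 hr]
    constructor
    · rintro ⟨w, hw, hx⟩
      exact ⟨WithLp.ofLp w, hw, congrArg WithLp.ofLp hx.symm⟩
    · rintro ⟨w, hw, hx⟩
      exact ⟨WithLp.toLp 2 w, hw, by rw [hx]; rfl⟩
  have hFb : Fbr e D S := by
    intro y
    rcases hF.2.2.2 (WithLp.toLp 2 y) with h | ⟨r, hr, h⟩
    · left
      ext x
      show sp e (y, x) ∈ S ↔ _
      rw [hmem, h]
      exact Iff.rfl
    · right
      exact ⟨r, hr, Set.ext (hrad y r hr h)⟩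
  obtain ⟨u, hu, hu0⟩ := exists_u0 hp hg
  have hH := hg_HH_fbr hS hg hFb hu hu0
  have hKe : fb e (HH e S u) (gauge D) = S := by
    ext x
    show (yp e x, gauge D (xp e x)) ∈ HH e S u ↔ x ∈ S
    rw [mem_HH hg hFb hu, Vale.Agent.P254.H242.sp_yx]
  refine ⟨HH e S u, hH, ?_, ?_, fun y h r hr => ?_, fun y r r' hr' h => ?_⟩
  · obtain ⟨z, hz⟩ := hS.2.2
    obtain ⟨ε, hε, hball⟩ := Metric.mem_nhds_iff.1 (mem_interior_iff_mem_nhds.1 hz)
    -- a point with nonzero second component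
    obtain ⟨x', hx'0, hx'⟩ : ∃ x' : Fin p → ℝ, x' ≠ 0 ∧ ‖x' - xp e z‖ < ε := by
      by_cases h : xp e z = 0
      · refine ⟨fun _ => ε / 2, fun h1 => ?_, ?_⟩
        · have := congrFun h1 ⟨0, hp⟩
          simp only [Pi.zero_apply] at this
          linarith
        · rw [h, sub_zero]
          have : Nonempty (Fin p) := ⟨⟨0, hp⟩⟩
          rw [pi_norm_const, Real.norm_eq_abs, abs_of_pos (by positivity)]
          linarith
      · exact ⟨xp e z, h, by simpa using hε⟩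
    have hgx : 0 < gauge D x' := by
      by_contra h
      exact hx'0 ((le_zero_iff hg _).1 (not_lt.1 h))
    have hin : ∀ y : Fin q → ℝ, ‖y - yp e z‖ < ε → (y, gauge D x') ∈ HH e S u := by
      intro y hy
      rw [mem_HH hg hFb hu]
      apply hball
      rw [mem_ball_iff_norm]
      refine (pi_norm_lt_iff hε).2 fun i => ?_
      obtain ⟨s, rfl⟩ := e.symm.surjective i
      rcases s with j | j
      · rw [Pi.sub_apply, Vale.Agent.P254.H242.sp_inl]
        exact (norm_le_pi_norm (y - yp e z) j).trans_lt hy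
      · rw [Pi.sub_apply, Vale.Agent.P254.H242.sp_inr]
        exact (norm_le_pi_norm (x' - xp e z) j).trans_lt hx'
    have c1 : Continuous fun v : (Fin q → ℝ) × ℝ => ‖v.1 - yp e z‖ :=
      (continuous_fst.sub continuous_const).norm
    have hO : IsOpen {v : (Fin q → ℝ) × ℝ | ‖v.1 - yp e z‖ < ε ∧ 0 < v.2 ∧ v.2 < gauge D x'} :=
      (isOpen_lt c1 continuous_const).inter
        ((isOpen_lt continuous_const continuous_snd).inter
          (isOpen_lt continuous_snd continuous_const))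
    refine ⟨(yp e z, gauge D x' / 2), interior_maximal (fun v hv => ?_) hO ?_⟩
    · exact hH.down _ _ _ (hin v.1 hv.1) hv.2.1.le hv.2.2.le
    · refine ⟨by simpa using hε, by positivity, by show gauge D x' / 2 < gauge D x'; linarith⟩
  · rw [volumeProduct_eq_vp K o b, volumeProduct_eq_vp (EE _) 0 (sb (q + p)), preimage_EE,
      ← fb_eq_cc e hH hD h0, hKe]
  · have h1 := (hmem y (r • u)).1 hr.2
    rw [h] at h1
    exact h1
  · show (0 ≤ r ∧ sp e (y, r • u) ∈ S) ↔ _
    rw [hrad y r' hr' h]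
    constructor
    · rintro ⟨h1, h2⟩
      rw [hg.smul r h1, hu, mul_one] at h2
      exact ⟨h1, h2⟩
    · rintro ⟨h1, h2⟩
      refine ⟨h1, ?_⟩
      rw [hg.smul r h1, hu, mul_one]
      exact h2

/-- the volume product is invariant under translations -/
theorem vp_translate (W : Set (E p)) (s : E p) :
    volumeProduct {x | x + s ∈ W} = volumeProduct W := by
  rw [volumeProduct_eq_vp W s (sb p), volumeProduct_eq_vp {x | x + s ∈ W} 0 (sb p)]
  congr 1
  ext u
  show frame 0 (sb p) u + s ∈ W ↔ frame s (sb p) u ∈ W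
  rw [frame_sb, frame_sb, zero_add, add_comm]

/-- the translate of a body -/
theorem body_translate {W : Set (E p)} (hW : IsConvexBody W) (s : E p) :
    IsConvexBody {x | x + s ∈ W} := by
  refine body_of_CB (p := 0) (b := sb p) ?_
  have h1 : frame 0 (sb p) ⁻¹' {x | x + s ∈ W} = frame s (sb p) ⁻¹' W := by
    ext u
    show frame 0 (sb p) u + s ∈ W ↔ frame s (sb p) u ∈ W
    rw [frame_sb, frame_sb, zero_add, add_comm]
  rw [h1]
  exact CB_frame hW s (sb p)

/-- **the general exchange inequality** -/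
theorem gen_exch (hp : 1 ≤ p) {U W : Set (E p)} {K K' : Set (E n)} (hU : IsConvexBody U)
    (hsU : IsSantalo U) (hW : IsConvexBody W) (hW0 : (0 : E p) ∈ W) {s : E p}
    (hsW : IsSantalo {x | x + s ∈ W}) (hK : IsConvexBody K) (hX : IsExchange q U W K K') :
    IsConvexBody K' ∧ volumeProduct K' * volumeProduct U ≤ volumeProduct K * volumeProduct W := by
  obtain ⟨rfl, o, f, g, hf, hg, hs, hfib⟩ := hX
  obtain ⟨b, hb⟩ := exists_frame hf hg hs
  have h0 := hsU.1
  have hU' := bd_frame hU 0 (sb p)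
  have hU0 : (0 : Fin p → ℝ) ∈ interior (frame 0 (sb p) ⁻¹' U) := frame_preimage_zero h0
  obtain ⟨hgU, hbU⟩ := isG_gauge hU' hU0
  obtain ⟨u, hu, hu0⟩ := exists_u0 hp hgU
  -- the fibre with the Santaló point in the origin
  obtain ⟨W0, hW0d⟩ : ∃ W0 : Set (E p), W0 = {x | x + s ∈ W} := ⟨_, rfl⟩
  rw [← hW0d] at hsW
  have hWb : IsConvexBody W0 := by rw [hW0d]; exact body_translate hW s
  have hWv : volumeProduct W0 = volumeProduct W := by rw [hW0d]; exact vp_translate W s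
  obtain ⟨D, hDd⟩ : ∃ D : Set (Fin p → ℝ), D = frame 0 (sb p) ⁻¹' W0 := ⟨_, rfl⟩
  have hD : Bd D := by rw [hDd]; exact bd_frame hWb 0 (sb p)
  have hD0 : (0 : Fin p → ℝ) ∈ interior D := by rw [hDd]; exact frame_preimage_zero hsW.1
  have hDb : ∀ a : Fin p → ℝ, ∫⁻ x in P0 D, ENNReal.ofReal (∑ i, a i * x i) =
      ∫⁻ x in P0 D, ENNReal.ofReal (-∑ i, a i * x i) := by
    rw [hDd]
    exact sant_bal hWb hsW
  have hmD : ∀ x : Fin p → ℝ, x ∈ D ↔ WithLp.toLp 2 x ∈ W0 := by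
    intro x
    rw [hDd]
    exact mem_frame_sb
  have hED : EE D = W0 := by
    ext x
    show WithLp.ofLp x ∈ D ↔ _
    rw [hmD]
  have hvD : -(WithLp.ofLp s) ∈ D := by
    rw [hmD, hW0d]
    show WithLp.toLp 2 (-(WithLp.ofLp s)) + s ∈ W
    have : (WithLp.toLp 2 (-(WithLp.ofLp s)) : E p) + s = 0 := by
      ext i
      simp
    rw [this]
    exact hW0
  -- uniqueness of the coordinates
  have hinj : ∀ y y' : E q, ∀ x x' : E p, f y + g x = f y' + g x' → y = y' ∧ x = x' := by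
    intro y y' x x' h
    have h1 : frame 0 b (sp finSumFinEquiv.symm (y.ofLp, x.ofLp)) =
        frame 0 b (sp finSumFinEquiv.symm (y'.ofLp, x'.ofLp)) := by
      rw [hb, hb, Vale.Agent.P254.H242.yp_sp, Vale.Agent.P254.H242.xp_sp,
        Vale.Agent.P254.H242.yp_sp, Vale.Agent.P254.H242.xp_sp, add_assoc, add_assoc]
      exact congrArg (fun v => 0 + v) h
    unfold frame at h1
    have h2 := b.equivFun.symm.injective (add_left_cancel h1)
    have h3 := congrArg (fun v => yp finSumFinEquiv.symm v) h2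
    have h4 := congrArg (fun v => xp finSumFinEquiv.symm v) h2
    simp only [Vale.Agent.P254.H242.yp_sp, Vale.Agent.P254.H242.xp_sp] at h3 h4
    exact ⟨by ext i; exact congrFun h3 i, by ext i; exact congrFun h4 i⟩
  -- uniqueness of the radii
  have hrun : ∀ (y : E q) (r r' : ℝ), 0 ≤ r → 0 ≤ r' →
      {x | o + f y + g x ∈ K} = (fun u => r • u) '' U →
      {x | o + f y + g x ∈ K} = (fun u => r' • u) '' U → r ≤ r' := by
    intro y r r' hr hr' h1 h2
    have e1 := fib_coord' (y := y.ofLp) hU h0 hb hr h1 (r • u)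
    have e2 := fib_coord' (y := y.ofLp) hU h0 hb hr' h2 (r • u)
    rw [hgU.smul r hr, hu, mul_one] at e1 e2
    exact e2.1 (e1.2 le_rfl)
  -- the body with the centred fibres
  obtain ⟨K2, hK2⟩ : ∃ K2 : Set (E (q + p)), K2 = {z | ∃ (y : E q) (x : E p) (r : ℝ),
    z = o + f y + g x ∧ 0 ≤ r ∧ {x | o + f y + g x ∈ K} = (fun u => r • u) '' U ∧
      x ∈ (fun w => r • w) '' W0} := ⟨_, rfl⟩
  have key2 : ∀ (y : E q) (r : ℝ), 0 ≤ r → {x | o + f y + g x ∈ K} = (fun u => r • u) '' U →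
      {x | o + f y + g x ∈ K2} = (fun w => r • w) '' W0 := by
    intro y r hr h1
    ext x
    constructor
    · intro hx
      rw [hK2] at hx
      obtain ⟨y', x', r', h2, hr', h3, h4⟩ := hx
      rw [add_assoc, add_assoc] at h2
      obtain ⟨rfl, rfl⟩ := hinj _ _ _ _ (add_left_cancel h2)
      have e : r' = r := le_antisymm (hrun _ _ _ hr' hr h3 h1) (hrun _ _ _ hr hr' h1 h3)
      rw [← e]
      exact h4
    · intro h2
      rw [hK2]
      exact ⟨y, x, r, rfl, hr, h1, h2⟩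
  have key1 : ∀ y : E q, {x | o + f y + g x ∈ K} = ∅ → {x | o + f y + g x ∈ K2} = ∅ := by
    intro y h1
    ext x
    simp only [mem_ofPred_eq, mem_empty_iff_false, iff_false]
    intro hx
    rw [hK2] at hx
    obtain ⟨y', x', r, h2, hr, h3, -⟩ := hx
    rw [add_assoc, add_assoc] at h2
    obtain ⟨rfl, rfl⟩ := hinj _ _ _ _ (add_left_cancel h2)
    rw [h1] at h3
    have h4 : r • (0 : E p) ∈ (fun u => r • u) '' U := ⟨0, interior_subset h0, rfl⟩
    rw [← h3] at h4
    exact h4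
  have hX2 : IsExchange q U W0 K K2 := by
    refine ⟨rfl, o, f, g, hf, hg, hs, fun y => ?_⟩
    rcases hfib y with ⟨h1, -⟩ | ⟨r, hr, h1, -⟩
    · exact Or.inl ⟨h1, key1 y h1⟩
    · exact Or.inr ⟨r, hr, h1, key2 y r hr h1⟩
  obtain ⟨hK2b, h1⟩ := exch_sant hp hU hsU hWb hsW hK hX2
  have hF2 : IsFibration o f g (EE D) K2 := by
    rw [hED]
    refine ⟨hf, hg, hs, fun y => ?_⟩
    rcases hfib y with ⟨h1, -⟩ | ⟨r, hr, h1, -⟩
    · exact Or.inl (key1 y h1)
    · exact Or.inr ⟨r, hr, key2 y r hr h1⟩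
  obtain ⟨H, hH, hHi, hv, hHe, hHr⟩ := cc_of_fibration hp hK2b hD hD0 hb hF2
  rw [hED] at hHr
  have hT : ∀ x : Fin p → ℝ, x ∈ TD D (WithLp.ofLp s) 1 ↔ WithLp.toLp 2 x ∈ W := by
    intro x
    show x - (1 : ℝ) • (WithLp.ofLp s) ∈ D ↔ _
    rw [hmD, hW0d]
    show WithLp.toLp 2 (x - (1 : ℝ) • (WithLp.ofLp s)) + s ∈ W ↔ _
    have : (WithLp.toLp 2 (x - (1 : ℝ) • (WithLp.ofLp s)) : E p) + s = WithLp.toLp 2 x := by
      ext i
      simp
    rw [this]
  have d1 := td_cpt hD.2.1 (WithLp.ofLp s) 1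
  have d2 := td_conv hD.1 (WithLp.ofLp s) 1
  have d3 : (0 : Fin p → ℝ) ∈ TD D (WithLp.ofLp s) 1 := by
    rw [hT]
    exact hW0
  have d4 : (interior (TD D (WithLp.ofLp s) 1)).Nonempty := by
    rw [td_int]
    exact ⟨(1 : ℝ) • WithLp.ofLp s, by rw [mem_ofPred_eq, sub_self]; exact hD0⟩
  -- the exchanged body
  have hK' : frame o b ⁻¹' K' = CC finSumFinEquiv.symm H (TD D (WithLp.ofLp s) 1) := by
    ext v
    have hmv : v ∈ frame o b ⁻¹' K' ↔ WithLp.toLp 2 (xp finSumFinEquiv.symm v) ∈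
        {x | o + f (WithLp.toLp 2 (yp finSumFinEquiv.symm v)) + g x ∈ K'} := by
      rw [mem_preimage, hb]
      exact Iff.rfl
    rw [hmv]
    rcases hfib (WithLp.toLp 2 (yp finSumFinEquiv.symm v)) with ⟨a1, a2⟩ | ⟨r, hr, a1, a2⟩
    · rw [a2]
      constructor
      · intro h
        exact absurd h (notMem_empty _)
      · rintro ⟨r, h, -⟩
        exact absurd h (hHe _ (key1 _ a1) r)
    · rw [a2]
      have hiff := fun s => hHr (yp finSumFinEquiv.symm v) s r hr (key2 _ r hr a1)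
      constructor
      · rintro ⟨w, hw, hx⟩
        refine ⟨r, (hiff r).2 ⟨hr, le_rfl⟩, WithLp.ofLp w, (hT _).2 hw, ?_⟩
        exact congrArg WithLp.ofLp hx.symm
      · rintro ⟨t, ht', w, hw, hx⟩
        obtain ⟨ht0, htr⟩ := (hiff t).1 ht'
        rcases hr.eq_or_lt with h7 | h7
        · have h8 : t = 0 := le_antisymm (by rw [h7]; exact htr) ht0
          refine ⟨WithLp.toLp 2 w, (hT _).1 hw, ?_⟩
          rw [hx, h8, ← h7]
          rfl
        · refine ⟨WithLp.toLp 2 ((t / r) • w), (hT _).1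
            (d2.smul_mem_of_zero_mem d3 hw ⟨by positivity, (div_le_one h7).2 htr⟩), ?_⟩
          rw [hx]
          show r • WithLp.toLp 2 ((t / r) • w) = WithLp.toLp 2 (t • w)
          rw [← WithLp.toLp_smul, smul_smul, mul_div_cancel₀ _ h7.ne']
  have hK'b : IsConvexBody K' := by
    refine body_of_CB (p := o) (b := b) ?_
    rw [hK']
    exact ⟨cc_compact _ hH d1, cc_convex _ hH d2, cc_interior _ hH hHi d4⟩
  refine ⟨hK'b, ?_⟩
  have hv' : volumeProduct K' =
      volumeProduct (EE (CC finSumFinEquiv.symm H (TD D (WithLp.ofLp s) 1))) := by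
    rw [volumeProduct_eq_vp K' o b, volumeProduct_eq_vp (EE _) 0 (sb (q + p)), preimage_EE, hK']
  have h2 : volumeProduct K' ≤ volumeProduct K2 := by
    rw [hv, hv']
    exact path_max hH hp hD hD0 hHi hDb hvD
  rw [hWv] at h1
  rw [h1]
  exact mul_le_mul' h2 le_rfl

end Vale.Agent.P248.H432.V6
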