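import Vale.Agent.P248.H432.MixLaw

/-! P248: the harmonic form of the fibre-sum law. -/

set_option linter.unusedSectionVars false

open MeasureTheory Set Filter
open scoped ENNReal Topology Pointwise

namespace Vale.Agent.P248.H432.V6

/-- **Fibre-sum law**, harmonic form for equal volumes -/
theorem fibre_harm {n : ℕ} {K K₁ K₂ : Set (E n)} (hK₁ : IsConvexBody K₁)
    (hK₂ : IsConvexBody K₂) (h : IsFibreSum K K₁ K₂) (hvol : volume K₁ = volume K₂) :
    IsConvexBody K ∧ ENNReal.ofReal (wh 1 1 (volumeProduct K₁).toReal (volumeProduct K₂).toReal) ≤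
      volumeProduct K := by
  obtain ⟨e, he0, hp1, hp2, hKe⟩ := h
  rcases n with _ | m
  · exact absurd (Subsingleton.elim e 0) he0
  obtain ⟨ℓ, he⟩ : ∃ ℓ : E (m + 1) →ₗ[ℝ] ℝ, ℓ e = 1 := by
    obtain ⟨f, hf⟩ := SeparatingDual.exists_eq_one (R := ℝ) he0
    exact ⟨f.toLinearMap, hf⟩
  obtain ⟨b, hb0, hb⟩ := exists_adapted ℓ he
  have hadd : ∀ (u : Fin (m + 1) → ℝ) (r : ℝ),
      frame 0 b (u + r • (Pi.single 0 1 : Fin (m + 1) → ℝ)) = frame 0 b u + r • e := by
    intro u r
    unfold frame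
    rw [map_add, map_smul, ← hb0]
    have : b.equivFun.symm (Pi.single 0 1) = b 0 := by
      rw [Module.Basis.equivFun_symm_apply, Finset.sum_eq_single 0]
      · simp
      · intro j _ hj; simp [hj]
      · simp
    rw [this, add_assoc]
  have hsub : ∀ (u : Fin (m + 1) → ℝ) (r : ℝ),
      frame 0 b (u - r • (Pi.single 0 1 : Fin (m + 1) → ℝ)) = frame 0 b u - r • e := by
    intro u r
    have := hadd u (-r)
    rwa [neg_smul, neg_smul, ← sub_eq_add_neg, ← sub_eq_add_neg] at this
  have hS₁ := CB_frame hK₁ 0 b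
  have hS₂ := CB_frame hK₂ 0 b
  obtain ⟨F, hF⟩ := frame_homeo (0 : E (m + 1)) b
  have hp1' : ∀ x ∈ frame 0 b ⁻¹' K₁, ∃ r : ℝ,
      x + r • (Pi.single 0 1 : Fin (m + 1) → ℝ) ∈ frame 0 b ⁻¹' K₂ := by
    intro x hx
    obtain ⟨r, hr⟩ := hp1 _ hx
    exact ⟨r, by rw [mem_preimage, hadd]; exact hr⟩
  have hp2' : ∀ x ∈ frame 0 b ⁻¹' K₂, ∃ r : ℝ,
      x + r • (Pi.single 0 1 : Fin (m + 1) → ℝ) ∈ frame 0 b ⁻¹' K₁ := by
    intro x hx
    obtain ⟨r, hr⟩ := hp2 _ hx
    exact ⟨r, by rw [mem_preimage, hadd]; exact hr⟩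
  have hKS : ∀ x, x ∈ frame 0 b ⁻¹' K ↔ ∃ r : ℝ,
      x + r • (Pi.single 0 1 : Fin (m + 1) → ℝ) ∈ frame 0 b ⁻¹' K₁ ∧
      x - r • (Pi.single 0 1 : Fin (m + 1) → ℝ) ∈ frame 0 b ⁻¹' K₂ := by
    intro x
    simp only [mem_preimage, hadd, hsub]
    rw [hKe]
    rfl
  have hS : CB (frame 0 b ⁻¹' K) := by
    set e' : Fin (m + 1) → ℝ := Pi.single 0 1 with he'
    set S₁ := frame 0 b ⁻¹' K₁ with hS₁'
    set S₂ := frame 0 b ⁻¹' K₂ with hS₂'
    refine ⟨?_, ?_, ?_⟩
    · have hA : IsCompact ((S₁ ×ˢ S₂) ∩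
          {p : (Fin (m + 1) → ℝ) × (Fin (m + 1) → ℝ) | p.1 - p.2 = (p.1 0 - p.2 0) • e'}) :=
        (hS₁.cpt.prod hS₂.cpt).inter_right (isClosed_eq (by fun_prop) (by fun_prop))
      have hB := hA.image (f := fun p : (Fin (m + 1) → ℝ) × (Fin (m + 1) → ℝ) =>
        (1 / 2 : ℝ) • (p.1 + p.2)) (by fun_prop)
      have hE : frame 0 b ⁻¹' K = (fun p : (Fin (m + 1) → ℝ) × (Fin (m + 1) → ℝ) =>
        (1 / 2 : ℝ) • (p.1 + p.2)) '' ((S₁ ×ˢ S₂) ∩
          {p | p.1 - p.2 = (p.1 0 - p.2 0) • e'}) := by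
        ext x
        rw [hKS]
        constructor
        · rintro ⟨r, h1, h2⟩
          refine ⟨(x + r • e', x - r • e'), ⟨⟨h1, h2⟩, ?_⟩, ?_⟩
          · show x + r • e' - (x - r • e') = ((x + r • e') 0 - (x - r • e') 0) • e'
            have : (x + r • e') 0 - (x - r • e') 0 = 2 * r := by
              simp [he']; ring
            rw [this]
            module
          · show (1 / 2 : ℝ) • (x + r • e' + (x - r • e')) = x
            module
        · rintro ⟨⟨p, q⟩, ⟨⟨h1, h2⟩, h3⟩, rfl⟩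
          have h3' : p - q = (p 0 - q 0) • e' := h3
          refine ⟨(p 0 - q 0) / 2, ?_, ?_⟩
          · have : (1 / 2 : ℝ) • (p + q) + ((p 0 - q 0) / 2) • e' = p := by
              have h4 : ((p 0 - q 0) / 2) • e' = (1 / 2 : ℝ) • (p - q) := by
                rw [h3', smul_smul]; congr 1; ring
              rw [h4]; module
            simp only
            rw [this]
            exact h1
          · have : (1 / 2 : ℝ) • (p + q) - ((p 0 - q 0) / 2) • e' = q := by
              have h4 : ((p 0 - q 0) / 2) • e' = (1 / 2 : ℝ) • (p - q) := by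
                rw [h3', smul_smul]; congr 1; ring
              rw [h4]; module
            simp only
            rw [this]
            exact h2
      rw [hE]
      exact hB
    · intro x hx y hy s t hs ht hst
      rw [hKS] at hx hy ⊢
      obtain ⟨r, h1, h2⟩ := hx
      obtain ⟨r', h3, h4⟩ := hy
      refine ⟨s * r + t * r', ?_, ?_⟩
      · have := hS₁.cvx h1 h3 hs ht hst
        have e1 : s • x + t • y + (s * r + t * r') • e' = s • (x + r • e') + t • (y + r' • e') := by
          module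
        rw [e1]; exact this
      · have := hS₂.cvx h2 h4 hs ht hst
        have e1 : s • x + t • y - (s * r + t * r') • e' = s • (x - r • e') + t • (y - r' • e') := by
          module
        rw [e1]; exact this
    · obtain ⟨z, hz⟩ := hS₁.ne
      obtain ⟨c, hc⟩ := exists_center (i := 0) hS₂.cvx hS₂.ne hp1' hz
      set w := Function.update z 0 c with hw
      refine ⟨(1 / 2 : ℝ) • (z + w), ?_⟩
      have hzw : z - w = (z 0 - c) • e' := by
        ext k
        by_cases hk : k = 0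
        · subst hk; simp [hw, he']
        · simp [hw, he', hk]
      have hcont1 : Continuous fun x : Fin (m + 1) → ℝ => x + ((z 0 - c) / 2) • e' := by fun_prop
      have hcont2 : Continuous fun x : Fin (m + 1) → ℝ => x - ((z 0 - c) / 2) • e' := by fun_prop
      have hopen := (isOpen_interior (s := S₁)).preimage hcont1 |>.inter
        ((isOpen_interior (s := S₂)).preimage hcont2)
      refine interior_maximal (fun x hx => ?_) hopen ⟨?_, ?_⟩
      · rw [hKS]
        exact ⟨(z 0 - c) / 2, interior_subset hx.1, interior_subset hx.2⟩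
      · have h4 : ((z 0 - c) / 2) • e' = (1 / 2 : ℝ) • (z - w) := by
          rw [hzw, smul_smul]; congr 1; ring
        show (1 / 2 : ℝ) • (z + w) + ((z 0 - c) / 2) • e' ∈ interior S₁
        rw [h4]
        have : (1 / 2 : ℝ) • (z + w) + (1 / 2 : ℝ) • (z - w) = z := by module
        rw [this]
        exact hz
      · have h4 : ((z 0 - c) / 2) • e' = (1 / 2 : ℝ) • (z - w) := by
          rw [hzw, smul_smul]; congr 1; ring
        show (1 / 2 : ℝ) • (z + w) - ((z 0 - c) / 2) • e' ∈ interior S₂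
        rw [h4]
        have : (1 / 2 : ℝ) • (z + w) - (1 / 2 : ℝ) • (z - w) = w := by module
        rw [this]
        exact hc
  have hK : IsConvexBody K := body_of_CB hS
  have hvv : volume (frame 0 b ⁻¹' K₁) = volume (frame 0 b ⁻¹' K₂) := by
    rw [volume_frame_preimage, volume_frame_preimage, hvol]
  have hw1 : wh 1 1 (volumeProduct K₁).toReal (volumeProduct K₂).toReal =
      wh (volume (frame 0 b ⁻¹' K₁)).toReal (volume (frame 0 b ⁻¹' K₂)).toReal
        (volumeProduct K₁).toReal (volumeProduct K₂).toReal := by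
    rw [← hvv]
    have h0 := hS₁.vol_toReal_pos
    have hv1 : 0 < (volumeProduct K₁).toReal := by
      rw [(ratio_real hK₁).2]; exact mul_pos (ratio_real hK₁).1 (simplexVal_pos _)
    have hv2 : 0 < (volumeProduct K₂).toReal := by
      rw [(ratio_real hK₂).2]; exact mul_pos (ratio_real hK₂).1 (simplexVal_pos _)
    unfold wh
    field_simp
  refine ⟨hK, ?_⟩
  rw [hw1, volumeProduct_eq_vp K 0 b]
  refine vp_lower hS fun z hz => ?_
  have hv1 : 0 < (volumeProduct K₁).toReal := by
    rw [(ratio_real hK₁).2]; exact mul_pos (ratio_real hK₁).1 (simplexVal_pos _)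
  have hv2 : 0 < (volumeProduct K₂).toReal := by
    rw [(ratio_real hK₂).2]; exact mul_pos (ratio_real hK₂).1 (simplexVal_pos _)
  have hf : (0 : ℝ) < ((Fintype.card (Fin (m + 1))).factorial : ℝ) := by positivity
  rw [← wh_smul hf hv1 hv2 hS₁.vol_toReal_pos hS₂.vol_toReal_pos]
  have l1 := fun z => EF_lower hS₁ z
  have l2 := fun z => EF_lower hS₂ z
  rw [← volumeProduct_eq_vp K₁ 0 b] at l1
  rw [← volumeProduct_eq_vp K₂ 0 b] at l2
  exact fiber_sum2 (i := 0) hS.cpt hS₁.cpt hS₁.cvx hS₁.ne hS₂.cpt hS₂.cvx hS₂.ne hKS hp1' hp2'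
    (mul_pos hf hv1) (mul_pos hf hv2) l1 l2 hz

end Vale.Agent.P248.H432.V6
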