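import Vale.Agent.P248.H432.V5.SCent

/-! P248: second order bound for the polar volume when `0` is the Santaló point. -/

set_option linter.unusedSectionVars false

open MeasureTheory Set
open scoped ENNReal Topology Pointwise

namespace Vale.Agent.P248.H432.V6

open Vale.Agent.P248.H917 (P0)

theorem second {p : ℕ} {W : Set (Fin p → ℝ)} (hW : CB W) (h0 : (0 : Fin p → ℝ) ∈ interior W)
    (hc : ∀ a : Fin p → ℝ, ∫⁻ x in P0 W, ENNReal.ofReal (∑ i, a i * x i) =
      ∫⁻ x in P0 W, ENNReal.ofReal (-∑ i, a i * x i)) {v : Fin p → ℝ} (hv : -v ∈ W) :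
    ∃ C : ℝ, 0 ≤ C ∧ ∀ t : ℝ, 0 ≤ t → t ≤ 1 / 2 →
      volume (polarP W (-(t • v))) ≤ ENNReal.ofReal (1 + C * t ^ 2) * volume (polarP W 0) := by
  have hWn : W.Nonempty := ⟨-v, hv⟩
  have h0W : (0 : Fin p → ℝ) ∈ W := interior_subset h0
  have hgc := hs_continuous hW.cpt hWn 0
  have hKe : {x | hs W 0 x ≤ 1} = P0 W := by
    rw [← polarP_eq hW.cpt hWn]
  set φ : (Fin p → ℝ) → ℝ := fun x => ∑ i, v i * x i with hφ
  have hφc : Continuous φ := by rw [hφ]; fun_prop
  have hφs : ∀ r : ℝ, ∀ x, φ (r • x) = r * φ x := by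
    intro r x
    rw [hφ]
    simp only [Pi.smul_apply, smul_eq_mul]
    rw [Finset.mul_sum]
    exact Finset.sum_congr rfl fun i _ => by ring
  -- the volume of the polar
  have hvol : volume (polarP W 0) ≠ ∞ := (polarP_isBounded h0).measure_lt_top.ne
  have hvol0 : volume (polarP W 0) ≠ 0 := by
    have h1 := polarP_mem_nhds hW.cpt.isBounded (0 : Fin p → ℝ)
    have h2 : (interior (polarP W 0)).Nonempty := ⟨0, mem_interior_iff_mem_nhds.2 h1⟩
    exact ((isOpen_interior.measure_pos volume h2).trans_le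
      (measure_mono interior_subset)).ne'
  have p1 := laplace_weight hgc.measurable (hs_nonneg hW.cpt h0W)
    (fun r hr x => hs_smul hW.cpt hWn 0 x hr.le) (ψ := fun x => ENNReal.ofReal (φ x))
    (by fun_prop) (fun r hr x => by rw [hφs, ENNReal.ofReal_mul hr.le])
  have p2 := laplace_weight hgc.measurable (hs_nonneg hW.cpt h0W)
    (fun r hr x => hs_smul hW.cpt hWn 0 x hr.le) (ψ := fun x => ENNReal.ofReal (-φ x))
    (by fun_prop) (fun r hr x => by
      rw [hφs, show -(r * φ x) = r * -φ x by ring, ENNReal.ofReal_mul hr.le])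
  rw [hKe] at p1 p2
  have p3 : ∫⁻ x, ENNReal.ofReal (Real.exp (-(hs W 0 x))) * ENNReal.ofReal (φ x) =
      ∫⁻ x, ENNReal.ofReal (Real.exp (-(hs W 0 x))) * ENNReal.ofReal (-φ x) := by
    rw [p1, p2, hc v]
  have hfin : ∫⁻ x, ENNReal.ofReal (Real.exp (-(hs W 0 x))) * ENNReal.ofReal (-φ x) ≠ ∞ := by
    rw [p2]
    refine ENNReal.mul_ne_top (ENNReal.natCast_ne_top _) ?_
    have hP : Bornology.IsBounded (P0 W) := polarP_isBounded h0
    have hPc : IsCompact (closure (P0 W)) := hP.isCompact_closure
    obtain ⟨C, hC⟩ := (hPc.image hφc.neg).isBounded.bddAbove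
    refine ne_top_of_le_ne_top (ENNReal.mul_ne_top (ENNReal.ofReal_ne_top (r := C))
      (show volume (P0 W) ≠ ∞ from hvol)) ?_
    rw [← setLIntegral_const]
    refine setLIntegral_mono measurable_const fun x hx => ?_
    exact ENNReal.ofReal_le_ofReal (hC ⟨x, subset_closure hx, rfl⟩)
  -- the size of `φ`
  obtain ⟨s, hs0, hsW⟩ : ∃ s : ℝ, 0 < s ∧ s • v ∈ W := by
    have h1 : Filter.Tendsto (fun s : ℝ => s • v) (𝓝 0) (𝓝 0) := by
      have h2 : Continuous fun s : ℝ => s • v := by fun_prop
      simpa using h2.tendsto 0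
    have h2 : ∀ᶠ s in 𝓝 (0 : ℝ), s • v ∈ W := h1 (mem_interior_iff_mem_nhds.1 h0)
    obtain ⟨ε, hε, h3⟩ := Metric.eventually_nhds_iff.1 h2
    refine ⟨ε / 2, by positivity, h3 ?_⟩
    rw [Real.dist_eq, sub_zero, abs_of_pos (by positivity)]
    linarith
  have hup : ∀ x, s * φ x ≤ hs W 0 x := by
    intro x
    have h1 := le_hs hW.cpt 0 x hsW
    refine le_trans (le_of_eq ?_) h1
    rw [hφ]
    simp only [Pi.smul_apply, smul_eq_mul, Pi.zero_apply, sub_zero]
    rw [Finset.mul_sum]
    exact Finset.sum_congr rfl fun i _ => by ring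
  have hlo : ∀ x, -φ x ≤ hs W 0 x := by
    intro x
    have h1 := le_hs hW.cpt 0 x hv
    refine le_trans (le_of_eq ?_) h1
    rw [hφ]
    simp only [Pi.neg_apply, Pi.zero_apply, sub_zero]
    rw [← Finset.sum_neg_distrib]
    exact Finset.sum_congr rfl fun i _ => by ring
  set J : ℝ≥0∞ := ∫⁻ x, ENNReal.ofReal (φ x ^ 2 * Real.exp (-(hs W 0 x / 2))) with hJ
  have hJfin : J ≠ ∞ := by
    set κ : ℝ := max 1 (1 / s) with hκ
    have hκ1 : 1 ≤ κ := le_max_left _ _
    have hbd : ∀ x, ENNReal.ofReal (φ x ^ 2 * Real.exp (-(hs W 0 x / 2))) ≤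
        ENNReal.ofReal (32 * κ ^ 2) * ENNReal.ofReal (Real.exp (-(hs W 0 x / 4))) := by
      intro x
      rw [← ENNReal.ofReal_mul (by positivity)]
      refine ENNReal.ofReal_le_ofReal ?_
      have hh := hs_nonneg hW.cpt h0W x
      set h := hs W 0 x with hhd
      have h1 : |φ x| ≤ κ * h := by
        rw [abs_le]
        constructor
        · have := hlo x
          nlinarith
        · have h2 : φ x ≤ 1 / s * h := by
            rw [div_mul_eq_mul_div, one_mul, le_div_iff₀ hs0]
            have := hup x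
            linarith
          have h3 : 1 / s ≤ κ := le_max_right _ _
          nlinarith
      have h2 : φ x ^ 2 ≤ κ ^ 2 * h ^ 2 := by
        rw [← mul_pow, ← sq_abs]
        exact pow_le_pow_left₀ (abs_nonneg _) h1 2
      have h3 : h ^ 2 ≤ 32 * Real.exp (h / 4) := by
        have h4 := Real.quadratic_le_exp_of_nonneg (x := h / 4) (by positivity)
        nlinarith
      have h5 : Real.exp (-(h / 2)) = Real.exp (-(h / 4)) * Real.exp (-(h / 4)) := by
        rw [← Real.exp_add]
        congr 1
        ring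
      have h6 : Real.exp (h / 4) * Real.exp (-(h / 4)) = 1 := by
        rw [← Real.exp_add]
        simp
      have h7 : 0 < Real.exp (-(h / 4)) := Real.exp_pos _
      calc φ x ^ 2 * Real.exp (-(h / 2))
          ≤ (κ ^ 2 * h ^ 2) * Real.exp (-(h / 2)) := by gcongr
        _ ≤ (κ ^ 2 * (32 * Real.exp (h / 4))) * Real.exp (-(h / 2)) := by gcongr
        _ = 32 * κ ^ 2 * (Real.exp (h / 4) * Real.exp (-(h / 4))) * Real.exp (-(h / 4)) := by
            rw [h5]; ring
        _ = 32 * κ ^ 2 * Real.exp (-(h / 4)) := by rw [h6, mul_one]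
    refine ne_top_of_le_ne_top ?_ (lintegral_mono hbd)
    rw [lintegral_const_mul _ (by fun_prop)]
    refine ENNReal.mul_ne_top ENNReal.ofReal_ne_top ?_
    rw [laplace_formula (g := fun x => hs W 0 x / 4) (hgc.measurable.div_const 4)
      (fun x => by have := hs_nonneg hW.cpt h0W x; positivity)
      (fun r hr x => by rw [hs_smul hW.cpt hWn 0 x hr.le]; ring)]
    refine ENNReal.mul_ne_top (ENNReal.natCast_ne_top _) ?_
    have hsub : {x : Fin p → ℝ | hs W 0 x / 4 ≤ 1} ⊆ (4 : ℝ) • polarP W 0 := by
      intro x hx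
      have hx' : hs W 0 x / 4 ≤ 1 := hx
      refine ⟨(1 / 4 : ℝ) • x, ?_, ?_⟩
      · rw [polarP_eq hW.cpt hWn]
        show hs W 0 ((1 / 4 : ℝ) • x) ≤ 1
        rw [hs_smul hW.cpt hWn 0 x (by norm_num)]
        linarith
      · show (4 : ℝ) • ((1 / 4 : ℝ) • x) = x
        rw [smul_smul]
        norm_num
    exact ((((polarP_isBounded h0).smul₀ 4).subset hsub).measure_lt_top).ne
  -- the inequality
  have key : ∀ t : ℝ, 0 ≤ t → t ≤ 1 / 2 →
      EF W (-(t • v)) ≤ EF W 0 + ENNReal.ofReal (t ^ 2) * J := by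
    intro t ht ht2
    have p4 : EF W (-(t • v)) +
        ENNReal.ofReal t * ∫⁻ x, ENNReal.ofReal (Real.exp (-(hs W 0 x))) *
          ENNReal.ofReal (φ x) ≤
        (EF W 0 + ENNReal.ofReal (t ^ 2) * J) +
        ENNReal.ofReal t * ∫⁻ x, ENNReal.ofReal (Real.exp (-(hs W 0 x))) *
          ENNReal.ofReal (-φ x) := by
      have hct := hs_continuous hW.cpt hWn (-(t • v))
      unfold EF
      rw [hJ, ← lintegral_const_mul _ (by fun_prop), ← lintegral_const_mul _ (by fun_prop),
        ← lintegral_const_mul _ (by fun_prop), ← lintegral_add_left (by fun_prop),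
        ← lintegral_add_left (by fun_prop), ← lintegral_add_left (by fun_prop)]
      refine lintegral_mono fun x => ?_
      have e2 : hs W (-(t • v)) x = hs W 0 x + t * φ x := by
        rw [hs_shift hW.cpt hWn (-(t • v)) 0 x]
        congr 1
        rw [hφ]
        simp only [Pi.zero_apply, Pi.neg_apply, Pi.smul_apply, smul_eq_mul, zero_sub, neg_neg]
        rw [Finset.mul_sum]
        exact Finset.sum_congr rfl fun i _ => by ring
      have hh := hs_nonneg hW.cpt h0W x
      have hl := hlo x
      set h := hs W 0 x with hhd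
      set E := Real.exp (-h) with hE
      have hE0 : 0 < E := Real.exp_pos _
      have e3 : Real.exp (-(hs W (-(t • v)) x)) = E * Real.exp (-(t * φ x)) := by
        rw [e2, hE, ← Real.exp_add]
        congr 1
        ring
      have hT : E * Real.exp (-(t * φ x)) ≤
          E - E * (t * φ x) + t ^ 2 * (φ x ^ 2 * Real.exp (-(h / 2))) := by
        have q1 : ∀ u : ℝ, u ≤ h / 2 → Real.exp u ≤ 1 + u + u ^ 2 * Real.exp (h / 2) := by
          intro u hu
          have hexp1 : 1 ≤ Real.exp (h / 2) := Real.one_le_exp (by positivity)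
          have hm : 1 - u ≤ Real.exp (-u) := by
            have := Real.add_one_le_exp (-u)
            linarith
          have hpu : 0 < Real.exp u := Real.exp_pos u
          have hmul : Real.exp (-u) * Real.exp u = 1 := by
            rw [← Real.exp_add]
            simp
          have h8 : (1 - u) * Real.exp u ≤ 1 := by
            calc (1 - u) * Real.exp u ≤ Real.exp (-u) * Real.exp u :=
                  mul_le_mul_of_nonneg_right hm hpu.le
              _ = 1 := hmul
          rcases le_total 0 u with h9 | h9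
          · have h10 : Real.exp u ≤ Real.exp (h / 2) := Real.exp_le_exp.2 hu
            have h11 : Real.exp u - 1 ≤ u * Real.exp u := by linarith
            have h12 : Real.exp u ≤ 1 + u + u ^ 2 * Real.exp u := by nlinarith
            have h13 : u ^ 2 * Real.exp u ≤ u ^ 2 * Real.exp (h / 2) :=
              mul_le_mul_of_nonneg_left h10 (sq_nonneg u)
            linarith
          · have h11 : 0 < 1 - u := by linarith
            have h12 : Real.exp u ≤ 1 + u + u ^ 2 := by
              have h13 : (1 - u) * (1 + u + u ^ 2) = 1 - u ^ 3 := by ring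
              have h14 : u ^ 3 ≤ 0 := by
                have : u ^ 3 = u * u ^ 2 := by ring
                rw [this]
                exact mul_nonpos_of_nonpos_of_nonneg h9 (sq_nonneg u)
              have h15 : (1 - u) * Real.exp u ≤ (1 - u) * (1 + u + u ^ 2) := by
                rw [h13]
                linarith
              exact le_of_mul_le_mul_left h15 h11
            nlinarith [sq_nonneg u]
        have q2 := q1 (-(t * φ x)) (by nlinarith)
        have q3 : E * Real.exp (h / 2) = Real.exp (-(h / 2)) := by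
          rw [hE, ← Real.exp_add]
          congr 1
          ring
        calc E * Real.exp (-(t * φ x))
            ≤ E * (1 + -(t * φ x) + (-(t * φ x)) ^ 2 * Real.exp (h / 2)) :=
              mul_le_mul_of_nonneg_left q2 hE0.le
          _ = E - E * (t * φ x) + t ^ 2 * (φ x ^ 2 * (E * Real.exp (h / 2))) := by ring
          _ = _ := by rw [q3]
      simp only
      rw [e3, ← ENNReal.ofReal_mul hE0.le, ← ENNReal.ofReal_mul hE0.le,
        ← ENNReal.ofReal_mul ht, ← ENNReal.ofReal_mul ht, ← ENNReal.ofReal_mul (by positivity)]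
      have hJ0 : 0 ≤ t ^ 2 * (φ x ^ 2 * Real.exp (-(h / 2))) := by positivity
      rcases le_total 0 (φ x) with h6 | h6
      · have e4 : t * (E * -φ x) ≤ 0 := by
          have : 0 ≤ t * (E * φ x) := by positivity
          linarith
        rw [ENNReal.ofReal_of_nonpos e4, add_zero, ← ENNReal.ofReal_add (by positivity)
          (by positivity), ← ENNReal.ofReal_add hE0.le hJ0]
        exact ENNReal.ofReal_le_ofReal (by nlinarith)
      · have e4 : t * (E * φ x) ≤ 0 := by
          have : 0 ≤ t * (E * -φ x) := mul_nonneg ht (mul_nonneg hE0.le (by linarith))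
          linarith
        rw [ENNReal.ofReal_of_nonpos e4, add_zero, ← ENNReal.ofReal_add hE0.le hJ0,
          ← ENNReal.ofReal_add (by positivity)
            (mul_nonneg ht (mul_nonneg hE0.le (by linarith)))]
        exact ENNReal.ofReal_le_ofReal (by nlinarith)
    rw [p3] at p4
    exact (ENNReal.add_le_add_iff_right
      (ENNReal.mul_ne_top ENNReal.ofReal_ne_top hfin)).1 p4
  -- conclusion
  set V : ℝ := (volume (polarP W 0)).toReal with hV
  have hVpos : 0 < V := ENNReal.toReal_pos hvol0 hvol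
  refine ⟨J.toReal / V, by positivity, fun t ht ht2 => ?_⟩
  have hz : -(t • v) ∈ W := by
    have h1 := hW.cvx h0W hv (show (0 : ℝ) ≤ 1 - t by linarith) ht (by ring)
    simpa using h1
  have h1 := key t ht ht2
  rw [EF_eq hW.cpt hz, EF_eq hW.cpt h0W] at h1
  have hfac : (1 : ℝ≥0∞) ≤ ((Fintype.card (Fin p)).factorial : ℝ≥0∞) := by
    exact_mod_cast Nat.succ_le_of_lt (Nat.factorial_pos _)
  have hfac0 : ((Fintype.card (Fin p)).factorial : ℝ≥0∞) ≠ 0 := by
    exact_mod_cast (Nat.factorial_pos _).ne'
  have h2 : ENNReal.ofReal (t ^ 2) * J ≤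
      ((Fintype.card (Fin p)).factorial : ℝ≥0∞) *
        (ENNReal.ofReal (J.toReal / V * t ^ 2) * volume (polarP W 0)) := by
    have h3 : ENNReal.ofReal (J.toReal / V * t ^ 2) * volume (polarP W 0) =
        ENNReal.ofReal (t ^ 2) * J := by
      rw [← ENNReal.ofReal_toReal hvol, ← ENNReal.ofReal_mul (by positivity),
        ← ENNReal.ofReal_toReal hJfin, ← ENNReal.ofReal_mul (by positivity)]
      congr 1
      rw [← hV]
      have : (ENNReal.ofReal J.toReal).toReal = J.toReal := by
        rw [ENNReal.ofReal_toReal hJfin]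
      rw [this]
      field_simp
    rw [h3]
    calc ENNReal.ofReal (t ^ 2) * J = 1 * (ENNReal.ofReal (t ^ 2) * J) := (one_mul _).symm
      _ ≤ _ := mul_le_mul' hfac le_rfl
  have h4 : ((Fintype.card (Fin p)).factorial : ℝ≥0∞) * volume (polarP W (-(t • v))) ≤
      ((Fintype.card (Fin p)).factorial : ℝ≥0∞) *
        (ENNReal.ofReal (1 + J.toReal / V * t ^ 2) * volume (polarP W 0)) := by
    refine h1.trans ?_
    refine (add_le_add le_rfl h2).trans (le_of_eq ?_)
    rw [← mul_add, ENNReal.ofReal_add (by norm_num) (by positivity), ENNReal.ofReal_one, add_mul,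
      one_mul]
  exact (ENNReal.mul_le_mul_iff_right hfac0 (ENNReal.natCast_ne_top _)).1 h4

end Vale.Agent.P248.H432.V6
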