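import Vale.Agent.P248.H432.V6.Harm
import Vale.Agent.P248.H432.V6.CVol
import Vale.Agent.P248.H432.V6.Second
import Vale.Agent.P248.H432.V5.Line

/-! P248: the fibre with the Santaló point at the origin gives the greatest volume product. -/

open MeasureTheory Set Filter
open scoped ENNReal Topology

namespace Vale.Agent.P248.H432.V6

open Vale.Agent.P254.US (IsG ball isG_gauge)
open Vale.Agent.P254.H242 (yp xp sp fb HG HH)
open Vale.Agent.P248.H917 (Bd P0)
open Vale.Agent.P248.H432.V5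

variable {n q p : ℕ}

/-- the translated fibre -/
def TD (D : Set (Fin p → ℝ)) (v : Fin p → ℝ) (t : ℝ) : Set (Fin p → ℝ) := {x | x - t • v ∈ D}

theorem td_cpt {D : Set (Fin p → ℝ)} (hD : IsCompact D) (v : Fin p → ℝ) (t : ℝ) :
    IsCompact (TD D v t) := by
  have h1 : TD D v t = (Homeomorph.addRight (-(t • v))) ⁻¹' D := by
    ext x
    show x - t • v ∈ D ↔ x + -(t • v) ∈ D
    rw [sub_eq_add_neg]
  rw [h1]
  exact (Homeomorph.addRight _).isCompact_preimage.2 hD

theorem td_conv {D : Set (Fin p → ℝ)} (hD : Convex ℝ D) (v : Fin p → ℝ) (t : ℝ) :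
    Convex ℝ (TD D v t) := by
  intro x hx y hy a b ha hb hab
  have h1 := hD hx hy ha hb hab
  show a • x + b • y - t • v ∈ D
  have e1 : a • (x - t • v) + b • (y - t • v) = a • x + b • y - (a + b) • (t • v) := by
    module
  rwa [e1, hab, one_smul] at h1

theorem td_int {D : Set (Fin p → ℝ)} (v : Fin p → ℝ) (t : ℝ) :
    interior (TD D v t) = {x | x - t • v ∈ interior D} := by
  have h1 : ∀ S : Set (Fin p → ℝ), {x | x - t • v ∈ S} = (Homeomorph.addRight (-(t • v))) ⁻¹' S := by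
    intro S
    ext x
    show x - t • v ∈ S ↔ x + -(t • v) ∈ S
    rw [sub_eq_add_neg]
  unfold TD
  rw [h1, h1, ← (Homeomorph.addRight (-(t • v))).preimage_interior]

theorem vol_EE (C : Set (Fin n → ℝ)) : volume (EE C) = volume C :=
  (EuclideanSpace.volume_preserving_symm_measurableEquiv_toLp (Fin n)).measure_preimage_equiv C

section path

variable {e : Fin n ≃ Fin q ⊕ Fin p} {H : Set ((Fin q → ℝ) × ℝ)} {D : Set (Fin p → ℝ)}
  {v : Fin p → ℝ}

theorem neg_mem (hc : Convex ℝ D) (h0 : (0 : Fin p → ℝ) ∈ D) (hv : -v ∈ D) {t : ℝ} (ht : 0 ≤ t)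
    (ht1 : t ≤ 1) : -(t • v) ∈ D := by
  have h1 := hc.smul_mem_of_zero_mem h0 hv ⟨ht, ht1⟩
  rwa [smul_neg] at h1

theorem path_body (hH : HG H) (hHi : (interior H).Nonempty) (hD : IsCompact D)
    (hc : Convex ℝ D) (hi : (interior D).Nonempty) (t : ℝ) :
    IsConvexBody (EE (CC e H (TD D v t))) := by
  refine cc_body e hH hHi (td_cpt hD v t) (td_conv hc v t) ?_
  rw [td_int]
  obtain ⟨x, hx⟩ := hi
  exact ⟨x + t • v, by rw [mem_ofPred_eq, add_sub_cancel_right]; exact hx⟩

theorem path_mid (hH : HG H) (hHi : (interior H).Nonempty) (hD : IsCompact D)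
    (hc : Convex ℝ D) (hi : (interior D).Nonempty) (h0 : (0 : Fin p → ℝ) ∈ D) (hv : -v ∈ D)
    (hv0 : v ≠ 0) {t : ℝ} (ht : 0 < t) (ht1 : t ≤ 1) :
    2 * ((volumeProduct (EE (CC e H (TD D v (t / 2))))).toReal)⁻¹ ≤
      ((volumeProduct (EE (CC e H (TD D v 0)))).toReal)⁻¹ +
        ((volumeProduct (EE (CC e H (TD D v t)))).toReal)⁻¹ := by
  have b0 := path_body (e := e) (v := v) hH hHi hD hc hi 0
  have b1 := path_body (e := e) (v := v) hH hHi hD hc hi t
  have hd : ((t / 2) • v) ≠ 0 := smul_ne_zero (by positivity) hv0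
  have m1 : (t / 2) • v ∈ TD D v (t / 2) := by
    show (t / 2) • v - (t / 2) • v ∈ D
    rw [sub_self]
    exact h0
  have m2 : -((t / 2) • v) ∈ TD D v (t / 2) := by
    show -((t / 2) • v) - (t / 2) • v ∈ D
    have : -((t / 2) • v) - (t / 2) • v = -(t • v) := by
      rw [← neg_add', ← add_smul, add_halves]
    rw [this]
    exact neg_mem hc h0 hv ht.le ht1
  have h1 := cc_sum e hH (td_conv hc v (t / 2)) hd m1 m2
  have e1 : {x | x + (t / 2) • v ∈ TD D v (t / 2)} = TD D v 0 := by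
    ext x
    show x + (t / 2) • v - (t / 2) • v ∈ D ↔ x - (0 : ℝ) • v ∈ D
    rw [add_sub_cancel_right, zero_smul, sub_zero]
  have e2 : {x | x - (t / 2) • v ∈ TD D v (t / 2)} = TD D v t := by
    ext x
    show x - (t / 2) • v - (t / 2) • v ∈ D ↔ x - t • v ∈ D
    rw [sub_sub, ← add_smul, add_halves]
  rw [e1, e2] at h1
  have hvol : volume (EE (CC e H (TD D v 0))) = volume (EE (CC e H (TD D v t))) := by
    rw [vol_EE, vol_EE]
    have h2 := cc_vol e hH hD hc h0 (v := (0 : ℝ) • v) (by simpa using h0)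
    have h3 := cc_vol e hH hD hc h0 (v := t • v) (neg_mem hc h0 hv ht.le ht1)
    exact h2.trans h3.symm
  obtain ⟨hb, h2⟩ := fibre_harm b0 b1 h1 hvol
  have pos : ∀ {K : Set (E n)}, IsConvexBody K → 0 < (volumeProduct K).toReal := by
    intro K hK
    rw [(ratio_real hK).2]
    exact mul_pos (ratio_real hK).1 (simplexVal_pos _)
  have p0 := pos b0
  have p1 := pos b1
  have p2 := pos hb
  rw [ENNReal.ofReal_le_iff_le_toReal (volumeProduct_ne_top hb)] at h2
  unfold wh at h2
  have h3 : (0 : ℝ) < 1 / (volumeProduct (EE (CC e H (TD D v 0)))).toReal +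
      1 / (volumeProduct (EE (CC e H (TD D v t)))).toReal := by positivity
  rw [div_le_iff₀ h3] at h2
  have h4 := mul_le_mul_of_nonneg_left h2 (inv_nonneg.2 p2.le)
  rw [← mul_assoc, inv_mul_cancel₀ p2.ne', one_mul] at h4
  simp only [one_div] at h4
  linarith

theorem path_dyadic (hH : HG H) (hHi : (interior H).Nonempty) (hD : IsCompact D)
    (hc : Convex ℝ D) (hi : (interior D).Nonempty) (h0 : (0 : Fin p → ℝ) ∈ D) (hv : -v ∈ D)
    (hv0 : v ≠ 0) (k : ℕ) :
    ((volumeProduct (EE (CC e H (TD D v ((1 / 2) ^ k))))).toReal)⁻¹ ≤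
      (1 - (1 / 2) ^ k) * ((volumeProduct (EE (CC e H (TD D v 0)))).toReal)⁻¹ +
        (1 / 2) ^ k * ((volumeProduct (EE (CC e H (TD D v 1)))).toReal)⁻¹ := by
  induction k with
  | zero => simp
  | succ k ih =>
    have h1 := path_mid (e := e) hH hHi hD hc hi h0 hv hv0 (t := (1 / 2) ^ k) (by positivity)
      (pow_le_one₀ (by norm_num) (by norm_num))
    have e1 : ((1 : ℝ) / 2) ^ k / 2 = (1 / 2) ^ (k + 1) := by
      rw [pow_succ]
      ring
    rw [e1] at h1
    have e2 : ((1 : ℝ) / 2) ^ (k + 1) = (1 / 2) ^ k / 2 := e1.symm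
    rw [e2] at h1 ⊢
    linarith

/-- small translations -/
theorem path_small (hH : HG H) (hp : 1 ≤ p) (hD : Bd D) (h0 : (0 : Fin p → ℝ) ∈ interior D)
    (hHi : (interior H).Nonempty)
    (hb : ∀ a : Fin p → ℝ, ∫⁻ x in P0 D, ENNReal.ofReal (∑ i, a i * x i) =
      ∫⁻ x in P0 D, ENNReal.ofReal (-∑ i, a i * x i)) (hv : -v ∈ D) :
    ∃ C : ℝ, 0 ≤ C ∧ ∀ t : ℝ, 0 ≤ t → t ≤ 1 / 2 →
      (volumeProduct (EE (CC e H (TD D v t)))).toReal ≤
        (1 + C * t ^ 2) * (volumeProduct (EE (CC e H (TD D v 0)))).toReal := by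
  have hCB : CB D := ⟨hD.2.1, hD.1, hD.2.2⟩
  obtain ⟨C, hC, hC2⟩ := second hCB h0 hb hv
  refine ⟨C, hC, fun t ht ht2 => ?_⟩
  have hT0 : TD D v 0 = D := by
    ext x
    show x - (0 : ℝ) • v ∈ D ↔ x ∈ D
    rw [zero_smul, sub_zero]
  have hti : -(t • v) ∈ interior D := by
    have h1 := hD.1.combo_interior_self_mem_interior h0 hv (a := 1 - t) (b := t) (by linarith) ht
      (by ring)
    rwa [smul_zero, zero_add, smul_neg] at h1
  have hDt : Bd (TD D v t) := by
    refine ⟨td_conv hD.1 v t, td_cpt hD.2.1 v t, ?_⟩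
    rw [td_int]
    exact ⟨0, by rw [mem_ofPred_eq, zero_sub]; exact hti⟩
  have h0t : (0 : Fin p → ℝ) ∈ interior (TD D v t) := by
    rw [td_int, mem_ofPred_eq, zero_sub]
    exact hti
  have b0 := path_body (e := e) (v := v) hH hHi hD.2.1 hD.1 hD.2.2 0
  have bt := path_body (e := e) (v := v) hH hHi hD.2.1 hD.1 hD.2.2 t
  have hvD : 0 < H917.vp D 0 :=
    lt_of_lt_of_le (mul_pos (Real.exp_pos _) (H917.cn_pos p)) (H917.near_sharp_at hD h0)
  have hvt : H917.vp (TD D v t) 0 ≤ (1 + C * t ^ 2) * H917.vp D 0 := by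
    have e1 : volume (TD D v t) = volume D := by
      have : TD D v t = (fun x => x + -(t • v)) ⁻¹' D := by
        ext x
        show x - t • v ∈ D ↔ x + -(t • v) ∈ D
        rw [sub_eq_add_neg]
      rw [this, measure_preimage_add_right]
    have e2 : polarP (TD D v t) 0 = polarP D (-(t • v)) := by
      have h1 := polarP_sub D (-(t • v)) 0
      rw [add_zero] at h1
      rw [← h1]
      congr 1
    unfold H917.vp
    rw [e1, e2]
    have h1 := hC2 t ht ht2
    have h2 := ENNReal.toReal_mono (ENNReal.mul_ne_top ENNReal.ofReal_ne_top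
      (polarP_isBounded h0).measure_lt_top.ne) h1
    rw [ENNReal.toReal_mul, ENNReal.toReal_ofReal (by positivity)] at h2
    calc _ ≤ (volume D).toReal * ((1 + C * t ^ 2) * (volume (polarP D 0)).toReal) :=
          mul_le_mul_of_nonneg_left h2 ENNReal.toReal_nonneg
      _ = _ := by ring
  have key : ∀ z ∈ interior (CC e H D),
      H917.vp D 0 * (volumeProduct (EE (CC e H (TD D v t)))).toReal ≤
        H917.vp (TD D v t) 0 * H917.vp (CC e H D) z := by
    intro z hz
    rw [← fb_eq_cc e hH hD h0] at hz ⊢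
    obtain ⟨hB, z', hz', h1⟩ := sant_exchange e hH hp hD h0 hb hDt h0t hz
    refine le_trans (mul_le_mul_of_nonneg_left ?_ hvD.le) h1
    rw [fb_eq_cc e hH hDt h0t] at hz' hB ⊢
    have h2 : volumeProduct (EE (CC e H (TD D v t))) ≤
        ENNReal.ofReal (H917.vp (CC e H (TD D v t)) z') := by
      rw [volumeProduct_eq_vp _ 0 (sb n), preimage_EE]
      refine (iInf₂_le z' hz').trans ?_
      unfold H917.vp
      rw [ENNReal.ofReal_mul ENNReal.toReal_nonneg,
        ENNReal.ofReal_toReal hB.2.1.measure_lt_top.ne,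
        ENNReal.ofReal_toReal (polarP_isBounded hz').measure_lt_top.ne]
    exact ENNReal.toReal_le_of_le_ofReal (H917.vp_nonneg _ _) h2
  -- infimum over the centres
  rw [hT0] at b0 ⊢
  have hS := CB_frame b0 0 (sb n)
  rw [preimage_EE] at hS
  have h1 : ENNReal.ofReal ((volumeProduct (EE (CC e H (TD D v t)))).toReal / (1 + C * t ^ 2)) ≤
      volumeProduct (EE (CC e H D)) := by
    rw [volumeProduct_eq_vp (EE (CC e H D)) 0 (sb n), preimage_EE]
    refine le_iInf₂ fun z hz => ?_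
    have h2 := key z hz
    have h3 : (volumeProduct (EE (CC e H (TD D v t)))).toReal / (1 + C * t ^ 2) ≤
        H917.vp (CC e H D) z := by
      rw [div_le_iff₀ (by positivity)]
      have h4 : H917.vp D 0 * (volumeProduct (EE (CC e H (TD D v t)))).toReal ≤
          H917.vp D 0 * (H917.vp (CC e H D) z * (1 + C * t ^ 2)) := by
        refine h2.trans ?_
        calc _ ≤ (1 + C * t ^ 2) * H917.vp D 0 * H917.vp (CC e H D) z :=
              mul_le_mul_of_nonneg_right hvt (H917.vp_nonneg _ _)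
          _ = _ := by ring
      exact le_of_mul_le_mul_left h4 hvD
    refine (ENNReal.ofReal_le_ofReal h3).trans ?_
    unfold H917.vp
    rw [ENNReal.ofReal_mul ENNReal.toReal_nonneg]
    exact mul_le_mul' ENNReal.ofReal_toReal_le ENNReal.ofReal_toReal_le
  rw [ENNReal.ofReal_le_iff_le_toReal (volumeProduct_ne_top b0), div_le_iff₀ (by positivity)] at h1
  linarith

/-- **the greatest volume product** -/
theorem path_max (hH : HG H) (hp : 1 ≤ p) (hD : Bd D) (h0 : (0 : Fin p → ℝ) ∈ interior D)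
    (hHi : (interior H).Nonempty)
    (hb : ∀ a : Fin p → ℝ, ∫⁻ x in P0 D, ENNReal.ofReal (∑ i, a i * x i) =
      ∫⁻ x in P0 D, ENNReal.ofReal (-∑ i, a i * x i)) (hv : -v ∈ D) :
    volumeProduct (EE (CC e H (TD D v 1))) ≤ volumeProduct (EE (CC e H D)) := by
  have hT0 : TD D v 0 = D := by
    ext x
    show x - (0 : ℝ) • v ∈ D ↔ x ∈ D
    rw [zero_smul, sub_zero]
  by_cases hv0 : v = 0
  · have : TD D v 1 = D := by
      ext x
      show x - (1 : ℝ) • v ∈ D ↔ x ∈ D
      rw [hv0, smul_zero, sub_zero]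
    rw [this]
  have b0 := path_body (e := e) (v := v) hH hHi hD.2.1 hD.1 hD.2.2 0
  have b1 := path_body (e := e) (v := v) hH hHi hD.2.1 hD.1 hD.2.2 1
  obtain ⟨C, hC, hC2⟩ := path_small (e := e) hH hp hD h0 hHi hb hv
  have pos : ∀ {K : Set (E n)}, IsConvexBody K → 0 < (volumeProduct K).toReal := by
    intro K hK
    rw [(ratio_real hK).2]
    exact mul_pos (ratio_real hK).1 (simplexVal_pos _)
  have p0 := pos b0
  have p1 := pos b1
  set a := ((volumeProduct (EE (CC e H (TD D v 0)))).toReal)⁻¹ with ha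
  set b := ((volumeProduct (EE (CC e H (TD D v 1)))).toReal)⁻¹ with hbb
  have ha0 : 0 < a := inv_pos.2 p0
  have key : ∀ k : ℕ, a - b ≤ C * a * (1 / 2) ^ (k + 1) := by
    intro k
    set t : ℝ := (1 / 2) ^ (k + 1) with ht
    have ht0 : 0 < t := by positivity
    have ht1 : t ≤ 1 / 2 := by
      rw [ht, pow_succ]
      have : ((1 : ℝ) / 2) ^ k ≤ 1 := pow_le_one₀ (by norm_num) (by norm_num)
      linarith
    have h1 := path_dyadic (e := e) hH hHi hD.2.1 hD.1 hD.2.2 (interior_subset h0) hv hv0 (k + 1)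
    rw [← ht, ← ha, ← hbb] at h1
    have h2 := hC2 t ht0.le ht1
    have pt := pos (path_body (e := e) (v := v) hH hHi hD.2.1 hD.1 hD.2.2 t)
    have h3 : a * (1 - C * t ^ 2) ≤ ((volumeProduct (EE (CC e H (TD D v t)))).toReal)⁻¹ := by
      have h4 : ((1 + C * t ^ 2) * (volumeProduct (EE (CC e H (TD D v 0)))).toReal)⁻¹ ≤
          ((volumeProduct (EE (CC e H (TD D v t)))).toReal)⁻¹ := inv_anti₀ pt h2
      refine le_trans ?_ h4
      rw [mul_inv, ← ha, mul_comm]
      refine mul_le_mul_of_nonneg_right ?_ ha0.le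
      have h5 : 0 < 1 + C * t ^ 2 := by positivity
      rw [← one_div, le_div_iff₀ h5]
      nlinarith [mul_nonneg hC (sq_nonneg t)]
    have h5 : a * (1 - C * t ^ 2) ≤ (1 - t) * a + t * b := h3.trans h1
    have h6 : t * (a - b) ≤ t * (C * a * t) := by nlinarith
    exact le_of_mul_le_mul_left h6 ht0
  have hab : a ≤ b := by
    by_contra hcon
    push Not at hcon
    have h1 : Tendsto (fun k : ℕ => C * a * (1 / 2 : ℝ) ^ (k + 1)) atTop (𝓝 (C * a * 0)) := by
      refine Tendsto.const_mul _ ?_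
      exact (tendsto_pow_atTop_nhds_zero_of_lt_one (by norm_num) (by norm_num)).comp
        (tendsto_add_atTop_nat 1)
    rw [mul_zero] at h1
    have h2 := ge_of_tendsto' h1 key
    linarith
  have h1 : (volumeProduct (EE (CC e H (TD D v 1)))).toReal ≤
      (volumeProduct (EE (CC e H (TD D v 0)))).toReal := by
    rwa [ha, hbb, inv_le_inv₀ p0 p1] at hab
  rw [hT0] at h1 b0
  exact (ENNReal.toReal_le_toReal (volumeProduct_ne_top b1) (volumeProduct_ne_top b0)).1 h1

end path

end Vale.Agent.P248.H432.V6
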