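import Vale.Agent.P248.H432.V5.SExch
import Mathlib.Probability.Moments.MGFAnalytic

/-! P248: existence of the Santaló point. -/

set_option linter.unusedSectionVars false

open MeasureTheory Set Filter
open scoped ENNReal Topology Pointwise

namespace Vale.Agent.P248.H432.V6

open Vale.Agent.P248.H432.V5
open Vale.Agent.P248.H917 (P0)

section ebal
variable {ι : Type*} [Fintype ι] [DecidableEq ι]

theorem EF_interior_lt_top_gen {K : Set (ι → ℝ)} {z : ι → ℝ} (hK : IsCompact K)
    (hz : z ∈ interior K) : EF K z < ∞ := by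
  rw [EF_eq hK (interior_subset hz)]
  exact ENNReal.mul_lt_top (by simp) (polarP_isBounded hz).measure_lt_top

/-- first variation at the minimum of the polar volume -/
theorem ex_bal {W : Set (ι → ℝ)} (hW : CB W) (h0 : (0 : ι → ℝ) ∈ interior W)
    (hmin : ∀ w ∈ interior W, volume (polarP W 0) ≤ volume (polarP W w)) (a : ι → ℝ) :
    ∫⁻ x in polarP W 0, ENNReal.ofReal (∑ i, a i * x i) =
      ∫⁻ x in polarP W 0, ENNReal.ofReal (-∑ i, a i * x i) := by
  have hn : W.Nonempty := ⟨0, interior_subset h0⟩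
  have h0W : (0 : ι → ℝ) ∈ W := interior_subset h0
  have hgc := hs_continuous hW.cpt hn 0
  have hKe : {x | hs W 0 x ≤ 1} = polarP W 0 := (polarP_eq hW.cpt hn 0).symm
  set φ : (ι → ℝ) → ℝ := fun x => ∑ i, a i * x i with hφ
  have hφc : Continuous φ := by rw [hφ]; fun_prop
  have hφs : ∀ r : ℝ, ∀ x, φ (r • x) = r * φ x := by
    intro r x
    rw [hφ]
    simp only [Pi.smul_apply, smul_eq_mul]
    rw [Finset.mul_sum]
    exact Finset.sum_congr rfl fun i _ => by ring
  set dn : (ι → ℝ) → ℝ≥0∞ := fun y => ENNReal.ofReal (Real.exp (-(hs W 0 y))) with hdn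
  have hdm : Measurable dn := by rw [hdn]; fun_prop
  set μ : Measure (ι → ℝ) := volume.withDensity dn with hμ
  have hEF : ∀ t : ℝ, ∫⁻ y, ENNReal.ofReal (Real.exp (t * φ y)) ∂μ = EF W (t • a) := by
    intro t
    rw [hμ, lintegral_withDensity_eq_lintegral_mul _ hdm (by fun_prop)]
    unfold EF
    refine lintegral_congr fun y => ?_
    have e2 : hs W (t • a) y = hs W 0 y - t * φ y := by
      rw [hs_shift hW.cpt hn (t • a) 0 y]
      have : ∑ i, ((0 : ι → ℝ) i - (t • a) i) * y i = -(t * φ y) := by
        rw [hφ]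
        simp only [Pi.zero_apply, zero_sub, Pi.smul_apply, smul_eq_mul]
        rw [Finset.mul_sum, ← Finset.sum_neg_distrib]
        exact Finset.sum_congr rfl fun i _ => by ring
      rw [this]
      ring
    simp only [Pi.mul_apply]
    rw [hdn, ← ENNReal.ofReal_mul (Real.exp_pos _).le, ← Real.exp_add, e2]
    congr 2
    ring
  -- small parameters
  have hcont : Tendsto (fun t : ℝ => t • a) (𝓝 0) (𝓝 (0 : ι → ℝ)) := by
    have : Continuous fun t : ℝ => t • a := by fun_prop
    have h2 := this.tendsto 0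
    rwa [zero_smul] at h2
  have hnear : ∀ᶠ t : ℝ in 𝓝 0, t • a ∈ interior W :=
    hcont (isOpen_interior.mem_nhds h0)
  have hfin : ∀ t : ℝ, t • a ∈ interior W → Integrable (fun y => Real.exp (t * φ y)) μ := by
    intro t ht
    refine ⟨by fun_prop, ?_⟩
    rw [hasFiniteIntegral_iff_ofReal (Eventually.of_forall fun y => (Real.exp_pos _).le), hEF]
    exact EF_interior_lt_top_gen hW.cpt ht
  have hmem : (0 : ℝ) ∈ interior (ProbabilityTheory.integrableExpSet φ μ) := by
    rw [mem_interior_iff_mem_nhds]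
    filter_upwards [hnear] with t ht
    exact hfin t ht
  have hmgf : ∀ t : ℝ, t • a ∈ interior W →
      ProbabilityTheory.mgf φ μ t = (EF W (t • a)).toReal := by
    intro t ht
    unfold ProbabilityTheory.mgf
    rw [integral_eq_lintegral_of_nonneg_ae (Eventually.of_forall fun y => (Real.exp_pos _).le)
      (hfin t ht).aestronglyMeasurable, hEF]
  have hloc : IsLocalMin (ProbabilityTheory.mgf φ μ) 0 := by
    filter_upwards [hnear] with t ht
    have h00 : (0 : ℝ) • a ∈ interior W := by rwa [zero_smul]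
    rw [hmgf t ht, hmgf 0 h00]
    refine ENNReal.toReal_mono (EF_interior_lt_top_gen hW.cpt ht).ne ?_
    rw [zero_smul, EF_eq hW.cpt h0W, EF_eq hW.cpt (interior_subset ht)]
    exact mul_le_mul_right (hmin _ ht) _
  have hder := hloc.deriv_eq_zero
  rw [ProbabilityTheory.deriv_mgf_zero hmem] at hder
  have hφi : Integrable φ μ := ProbabilityTheory.integrable_of_mem_interior_integrableExpSet hmem
  rw [integral_eq_lintegral_pos_part_sub_lintegral_neg_part hφi, sub_eq_zero] at hder
  replace hder := (ENNReal.toReal_eq_toReal_iff' hφi.lintegral_lt_top.ne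
    hφi.neg.lintegral_lt_top.ne).1 hder
  simp only [Pi.neg_apply] at hder
  rw [hμ, lintegral_withDensity_eq_lintegral_mul _ hdm (by fun_prop),
    lintegral_withDensity_eq_lintegral_mul _ hdm (by fun_prop)] at hder
  simp only [Pi.mul_apply] at hder
  have p1 := laplace_weight hgc.measurable (hs_nonneg hW.cpt h0W)
    (fun r hr x => hs_smul hW.cpt hn 0 x hr.le) (ψ := fun x => ENNReal.ofReal (φ x))
    (by fun_prop) (fun r hr x => by rw [hφs, ENNReal.ofReal_mul hr.le])
  have p2 := laplace_weight hgc.measurable (hs_nonneg hW.cpt h0W)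
    (fun r hr x => hs_smul hW.cpt hn 0 x hr.le) (ψ := fun x => ENNReal.ofReal (-φ x))
    (by fun_prop) (fun r hr x => by
      rw [hφs, show -(r * φ x) = r * -φ x by ring, ENNReal.ofReal_mul hr.le])
  rw [hKe] at p1 p2
  rw [hdn] at hder
  simp only at hder
  rw [p1, p2] at hder
  exact (ENNReal.mul_right_inj (by exact_mod_cast (Nat.factorial_pos _).ne')
    (ENNReal.natCast_ne_top _)).1 hder

end ebal

variable {p : ℕ}

/-- from the balance to the centroid -/
theorem sant_of_bal {U : Set (E p)} (hU : IsConvexBody U) (hU0 : (0 : E p) ∈ interior U)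
    (hb : ∀ a : Fin p → ℝ,
      ∫⁻ x in polarP (frame 0 (sb p) ⁻¹' U) 0, ENNReal.ofReal (∑ i, a i * x i) =
      ∫⁻ x in polarP (frame 0 (sb p) ⁻¹' U) 0, ENNReal.ofReal (-∑ i, a i * x i)) :
    IsSantalo U := by
  refine ⟨hU0, ?_⟩
  have hL := polarAt_body hU hU0
  have hpre := preimage_polarAt U 0
  set L := polarAt U 0 with hLd
  have hint : Integrable (fun x : E p => x) (volume.restrict L) :=
    (continuous_id.continuousOn (s := L)).integrableOn_compact hL.1
  have hme : MeasurableEmbedding (frame (0 : E p) (sb p)) := by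
    obtain ⟨h, hh⟩ := frame_homeo (0 : E p) (sb p)
    have : frame (0 : E p) (sb p) = h := funext fun u => (hh u).symm
    rw [this]
    exact h.measurableEmbedding
  have hin : ∀ v : E p, inner ℝ v (∫ x in L, x) = 0 := by
    intro v
    set φ : E p → ℝ := fun x => inner ℝ v x with hφ
    have hφc : Continuous φ := by rw [hφ]; fun_prop
    have hφi : Integrable φ (volume.restrict L) :=
      (hφc.continuousOn (s := L)).integrableOn_compact hL.1
    have he : ∀ u, φ (frame 0 (sb p) u) = ∑ i, v i * u i := by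
      intro u
      rw [hφ]
      simp only
      rw [frame_sb, zero_add, PiLp.inner_apply]
      refine Finset.sum_congr rfl fun i _ => ?_
      simp [mul_comm]
    have h3 := (mp_frame (0 : E p)).setLIntegral_comp_preimage_emb hme
      (fun x => ENNReal.ofReal (φ x)) L
    have h4 := (mp_frame (0 : E p)).setLIntegral_comp_preimage_emb hme
      (fun x => ENNReal.ofReal (-φ x)) L
    simp only [he] at h3 h4
    have h5 : ∫⁻ x in L, ENNReal.ofReal (φ x) = ∫⁻ x in L, ENNReal.ofReal (-φ x) := by
      rw [← h3, ← h4, hpre]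
      exact hb v.ofLp
    have h2 := integral_inner (𝕜 := ℝ) (μ := volume.restrict L) hint v
    rw [← h2, integral_eq_lintegral_pos_part_sub_lintegral_neg_part hφi, h5, sub_self]
  have h0 : ∫ x in L, x = 0 := inner_self_eq_zero.1 (hin _)
  rw [setAverage_eq, h0, smul_zero]

theorem exists_sant {W : Set (E p)} (hW : IsConvexBody W) :
    ∃ s : E p, s ∈ interior W ∧ IsSantalo {x | x + s ∈ W} := by
  have hW' := CB_frame hW 0 (sb p)
  obtain ⟨z, hz, hmin⟩ := exists_santalo hW'.cpt hW'.cvx hW'.ne
  have hs : WithLp.toLp 2 z ∈ interior W := by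
    rw [frame_preimage_interior, mem_preimage, frame_sb, zero_add] at hz
    exact hz
  refine ⟨WithLp.toLp 2 z, hs, ?_⟩
  set s : E p := WithLp.toLp 2 z with hsd
  have hT : IsConvexBody {x : E p | x + s ∈ W} := by
    refine ⟨?_, ?_, ?_⟩
    · exact (Homeomorph.addRight s).isCompact_preimage.2 hW.1
    · exact hW.2.1.translate_preimage_left s
    · refine ⟨0, ?_⟩
      have h5 := (Homeomorph.addRight s).preimage_interior W
      have h6 : (0 : E p) ∈ (Homeomorph.addRight s) ⁻¹' interior W := by
        show (0 : E p) + s ∈ interior W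
        rwa [zero_add]
      rw [h5] at h6
      exact h6
  have hT0 : (0 : E p) ∈ interior {x : E p | x + s ∈ W} := by
    have h5 := (Homeomorph.addRight s).preimage_interior W
    have h6 : (0 : E p) ∈ (Homeomorph.addRight s) ⁻¹' interior W := by
      show (0 : E p) + s ∈ interior W
      rwa [zero_add]
    rw [h5] at h6
    exact h6
  have e1 : frame 0 (sb p) ⁻¹' {x : E p | x + s ∈ W} =
      {x : Fin p → ℝ | x + z ∈ frame 0 (sb p) ⁻¹' W} := by
    ext x
    show frame 0 (sb p) x + s ∈ W ↔ frame 0 (sb p) (x + z) ∈ W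
    rw [frame_sb, frame_sb, zero_add, zero_add, hsd, WithLp.toLp_add]
  have hCT := CB_frame hT 0 (sb p)
  have hC0 : (0 : Fin p → ℝ) ∈ interior (frame 0 (sb p) ⁻¹' {x : E p | x + s ∈ W}) :=
    frame_preimage_zero hT0
  refine sant_of_bal hT hT0 (fun a => ex_bal hCT hC0 ?_ a)
  intro w hw
  rw [e1, polarP_sub, polarP_sub, add_zero]
  refine hmin _ ?_
  rw [e1] at hw
  have h5 := (Homeomorph.addRight z).preimage_interior (frame 0 (sb p) ⁻¹' W)
  have h6 : w ∈ (Homeomorph.addRight z) ⁻¹' interior (frame 0 (sb p) ⁻¹' W) := by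
    rw [h5]
    exact hw
  have h7 : w + z ∈ interior (frame 0 (sb p) ⁻¹' W) := h6
  rwa [add_comm] at h7

end Vale.Agent.P248.H432.V6
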